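import Crest.Agent.X212.Dsc37.Defs
import Crest.Agent.X212.Lad50.Sd

-- ▼ part X212/Dsc37/Tool
section

/-!
# Toolkit: cocycles on preorders, retractions, Quillen fibre lemmas, chains
-/

namespace Crest.Agent.X212.Dsc37

section Rel
variable {α β G : Type*} [AddGroup G] {r : α → α → Prop} {s : β → β → Prop} {W : Set α}
  {Y : Set β}

/-- connected with `H^1(·; Z/2) = 0` -/
def Ac (r : α → α → Prop) (W : Set α) : Prop := Conn r W ∧ H0 r W

theorem Coc.self {c : α → α → G} (h : Coc r W c) {x : α} (hx : x ∈ W) (hr : r x x) :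
    c x x = 0 := by
  have := h x hx x hx x hx hr hr
  simpa using this

theorem Coc.mono {c : α → α → G} (h : Coc r W c) {r' : α → α → Prop} {W' : Set α}
    (hW : W' ⊆ W) (hr : ∀ x ∈ W', ∀ y ∈ W', r' x y → r x y) : Coc r' W' c :=
  fun x hx y hy z hz a b => h x (hW hx) y (hW hy) z (hW hz) (hr x hx y hy a) (hr y hy z hz b)

theorem Cob.mono {c : α → α → G} (h : Cob r W c) {r' : α → α → Prop} {W' : Set α}
    (hW : W' ⊆ W) (hr : ∀ x ∈ W', ∀ y ∈ W', r' x y → r x y) : Cob r' W' c := by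
  obtain ⟨l, hl⟩ := h
  exact ⟨l, fun x hx y hy a => hl x (hW hx) y (hW hy) (hr x hx y hy a)⟩

theorem Cob.congr {c c' : α → α → G} (h : Cob r W c)
    (e : ∀ x ∈ W, ∀ y ∈ W, r x y → c x y = c' x y) : Cob r W c' := by
  obtain ⟨l, hl⟩ := h
  exact ⟨l, fun x hx y hy a => by rw [← e x hx y hy a]; exact hl x hx y hy a⟩

theorem Conn.const (h : Conn r W) {γ : Type*} (l : α → γ)
    (hl : ∀ x ∈ W, ∀ y ∈ W, r x y → l x = l y) {x y : α} (hx : x ∈ W) (hy : y ∈ W) :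
    l x = l y := by
  have := h.2 (fun z => l x = l z) (fun a ha b hb e => by simp only [hl a ha b hb e]) x hx y hy
  exact this.1 rfl

theorem Conn.of_const (hne : W.Nonempty)
    (h : ∀ l : α → ZMod 2, (∀ x ∈ W, ∀ y ∈ W, r x y → l x = l y) → ∀ x ∈ W, ∀ y ∈ W, l x = l y) :
    Conn r W := by
  classical
  refine ⟨hne, fun κ hκ x hx y hy => ?_⟩
  have := h (fun z => if κ z then 1 else 0)
    (fun a ha b hb e => by simp only [hκ a ha b hb e]) x hx y hy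
  by_cases a : κ x <;> by_cases b : κ y <;> simp_all

theorem Conn.mono_rel (h : Conn r W) {r' : α → α → Prop}
    (hr : ∀ x ∈ W, ∀ y ∈ W, r x y → r' x y) : Conn r' W :=
  ⟨h.1, fun κ hκ => h.2 κ fun x hx y hy a => hκ x hx y hy (hr x hx y hy a)⟩

/-- two potentials differ by a constant on the left -/
theorem Conn.uniq (h : Conn r W) {c : α → α → G} {l l' : α → G}
    (hl : ∀ x ∈ W, ∀ y ∈ W, r x y → l y = l x + c x y)
    (hl' : ∀ x ∈ W, ∀ y ∈ W, r x y → l' y = l' x + c x y) {x y : α} (hx : x ∈ W) (hy : y ∈ W) :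
    l' y = (l' x - l x) + l y := by
  have := h.const (fun z => l' z - l z) (fun a ha b hb e => by
    rw [hl a ha b hb e, hl' a ha b hb e]; simp [sub_eq_add_neg, add_assoc]) hx hy
  rw [this]; simp

theorem Coc.comp {c : β → β → G} (h : Coc s Y c) {f : α → β} (hf : ∀ x ∈ W, f x ∈ Y)
    (hm : ∀ x ∈ W, ∀ y ∈ W, r x y → s (f x) (f y)) : Coc r W fun x y => c (f x) (f y) :=
  fun x hx y hy z hz a b =>
    h _ (hf x hx) _ (hf y hy) _ (hf z hz) (hm x hx y hy a) (hm y hy z hz b)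

theorem Cob.comp {c : β → β → G} (h : Cob s Y c) {f : α → β} (hf : ∀ x ∈ W, f x ∈ Y)
    (hm : ∀ x ∈ W, ∀ y ∈ W, r x y → s (f x) (f y)) : Cob r W fun x y => c (f x) (f y) := by
  obtain ⟨l, hl⟩ := h
  exact ⟨fun x => l (f x), fun x hx y hy a => hl _ (hf x hx) _ (hf y hy) (hm x hx y hy a)⟩

theorem Ac.of_top {m : α} (hm : m ∈ W) (h : ∀ x ∈ W, r x m) : Ac r W := by
  refine ⟨⟨⟨m, hm⟩, fun κ hκ x hx y hy =>
    (hκ x hx m hm (h x hx)).trans (hκ y hy m hm (h y hy)).symm⟩, fun c hc => ?_⟩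
  refine ⟨fun x => -c x m, fun x hx y hy a => ?_⟩
  simp only [hc x hx y hy m hm a (h y hy)]; ring

theorem Ac.of_bot {m : α} (hm : m ∈ W) (h : ∀ x ∈ W, r m x) : Ac r W := by
  refine ⟨⟨⟨m, hm⟩, fun κ hκ x hx y hy =>
    (hκ m hm x hx (h x hx)).symm.trans (hκ m hm y hy (h y hy))⟩, fun c hc => ?_⟩
  exact ⟨fun x => c m x, fun x hx y hy a => hc m hm x hx y hy (h x hx) a⟩

/-- retraction upwards -/
theorem Ac.up (h : Ac s Y) (i : β → α) (ρ : α → β) (hi : ∀ y ∈ Y, i y ∈ W)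
    (him : ∀ x ∈ Y, ∀ y ∈ Y, s x y → r (i x) (i y)) (hρ : ∀ x ∈ W, ρ x ∈ Y)
    (hρm : ∀ x ∈ W, ∀ y ∈ W, r x y → s (ρ x) (ρ y)) (hle : ∀ x ∈ W, r x (i (ρ x))) :
    Ac r W := by
  obtain ⟨⟨⟨y0, hy0⟩, hc⟩, h0⟩ := h
  refine ⟨⟨⟨i y0, hi _ hy0⟩, fun κ hκ x hx y hy => ?_⟩, fun c hc => ?_⟩
  · have := hc (fun z => κ (i z)) (fun a ha b hb e => hκ _ (hi a ha) _ (hi b hb) (him a ha b hb e))
      _ (hρ x hx) _ (hρ y hy)
    exact (hκ x hx _ (hi _ (hρ x hx)) (hle x hx)).trans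
      (this.trans (hκ y hy _ (hi _ (hρ y hy)) (hle y hy)).symm)
  · obtain ⟨l, hl⟩ := h0 _ (hc.comp hi him)
    refine ⟨fun x => l (ρ x) - c x (i (ρ x)), fun x hx y hy a => ?_⟩
    have e1 := hc x hx y hy _ (hi _ (hρ y hy)) a (hle y hy)
    have e2 := hc x hx _ (hi _ (hρ x hx)) _ (hi _ (hρ y hy)) (hle x hx)
      (him _ (hρ x hx) _ (hρ y hy) (hρm x hx y hy a))
    have e3 := hl _ (hρ x hx) _ (hρ y hy) (hρm x hx y hy a)
    simp only at e3 ⊢
    linear_combination e3 + e1 - e2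

/-- retraction downwards -/
theorem Ac.down (h : Ac s Y) (i : β → α) (ρ : α → β) (hi : ∀ y ∈ Y, i y ∈ W)
    (him : ∀ x ∈ Y, ∀ y ∈ Y, s x y → r (i x) (i y)) (hρ : ∀ x ∈ W, ρ x ∈ Y)
    (hρm : ∀ x ∈ W, ∀ y ∈ W, r x y → s (ρ x) (ρ y)) (hle : ∀ x ∈ W, r (i (ρ x)) x) :
    Ac r W := by
  obtain ⟨⟨⟨y0, hy0⟩, hc⟩, h0⟩ := h
  refine ⟨⟨⟨i y0, hi _ hy0⟩, fun κ hκ x hx y hy => ?_⟩, fun c hc => ?_⟩
  · have := hc (fun z => κ (i z)) (fun a ha b hb e => hκ _ (hi a ha) _ (hi b hb) (him a ha b hb e))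
      _ (hρ x hx) _ (hρ y hy)
    exact (hκ _ (hi _ (hρ x hx)) x hx (hle x hx)).symm.trans
      (this.trans (hκ _ (hi _ (hρ y hy)) y hy (hle y hy)))
  · obtain ⟨l, hl⟩ := h0 _ (hc.comp hi him)
    refine ⟨fun x => l (ρ x) + c (i (ρ x)) x, fun x hx y hy a => ?_⟩
    have e1 := hc _ (hi _ (hρ x hx)) x hx y hy (hle x hx) a
    have e2 := hc _ (hi _ (hρ x hx)) _ (hi _ (hρ y hy)) y hy
      (him _ (hρ x hx) _ (hρ y hy) (hρm x hx y hy a)) (hle y hy)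
    have e3 := hl _ (hρ x hx) _ (hρ y hy) (hρm x hx y hy a)
    simp only at e3 ⊢
    linear_combination e3 + e1 - e2

/-- the fibre of `f` below `y` -/
def Fb (s : β → β → Prop) (W : Set α) (f : α → β) (y : β) : Set α := {x | x ∈ W ∧ s (f x) y}

section Quillen
variable {f : α → β} (hs : ∀ y ∈ Y, s y y)
  (ht : ∀ x ∈ Y, ∀ y ∈ Y, ∀ z ∈ Y, s x y → s y z → s x z) (hf : ∀ x ∈ W, f x ∈ Y)
  (hm : ∀ x ∈ W, ∀ y ∈ W, r x y → s (f x) (f y))
include hs ht hf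

theorem Conn.quillen (hF : ∀ y ∈ Y, Conn r (Fb s W f y)) (h : Conn s Y) : Conn r W := by
  obtain ⟨⟨y0, hy0⟩, hc⟩ := h
  obtain ⟨x0, hx0⟩ := (hF y0 hy0).1
  refine ⟨⟨x0, hx0.1⟩, fun κ hκ x hx y hy => ?_⟩
  have k1 : ∀ y ∈ Y, ∀ a ∈ Fb s W f y, ∀ b ∈ Fb s W f y, (κ a ↔ κ b) := fun y hy =>
    (hF y hy).2 κ fun a ha b hb e => hκ a ha.1 b hb.1 e
  have k2 : ∀ y ∈ Y, ∀ a ∈ Fb s W f y, (κ a ↔ ∃ b ∈ Fb s W f y, κ b) := fun y hy a ha =>
    ⟨fun e => ⟨a, ha, e⟩, fun ⟨b, hb, e⟩ => (k1 y hy a ha b hb).2 e⟩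
  have := hc (fun y => ∃ b ∈ Fb s W f y, κ b) (fun a ha b hb e => by
    obtain ⟨z, hz⟩ := (hF a ha).1
    exact (k2 a ha z hz).symm.trans (k2 b hb z ⟨hz.1, ht _ (hf z hz.1) a ha b hb hz.2 e⟩))
    _ (hf x hx) _ (hf y hy)
  exact (k2 _ (hf x hx) x ⟨hx, hs _ (hf x hx)⟩).trans
    (this.trans (k2 _ (hf y hy) y ⟨hy, hs _ (hf y hy)⟩).symm)

include hm

theorem H0.quillen (hF : ∀ y ∈ Y, Ac r (Fb s W f y)) (h : H0 s Y) : H0 r W := by
  classical
  intro c hc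
  have k1 : ∀ y, ∃ l : α → ZMod 2, y ∈ Y → ∀ a ∈ Fb s W f y, ∀ b ∈ Fb s W f y, r a b →
      l b = l a + c a b := by
    intro y
    by_cases hy : y ∈ Y
    · obtain ⟨l, hl⟩ := (hF y hy).2 c (hc.mono (fun a ha => ha.1) fun _ _ _ _ e => e)
      exact ⟨l, fun _ => hl⟩
    · exact ⟨0, fun e => (hy e).elim⟩
  choose l hl using k1
  have hsub : ∀ a ∈ Y, ∀ b ∈ Y, s a b → Fb s W f a ⊆ Fb s W f b := fun a ha b hb e z hz =>
    ⟨hz.1, ht _ (hf z hz.1) a ha b hb hz.2 e⟩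
  have k2 : ∀ a b, ∃ d : ZMod 2, a ∈ Y → b ∈ Y → s a b → ∀ z ∈ Fb s W f a, l b z = d + l a z := by
    intro a b
    by_cases e : a ∈ Y ∧ b ∈ Y ∧ s a b
    · obtain ⟨ha, hb, e⟩ := e
      obtain ⟨z0, hz0⟩ := (hF a ha).1.1
      exact ⟨l b z0 - l a z0, fun _ _ _ z hz => (hF a ha).1.uniq (hl a ha)
        (fun x hx y hy => hl b hb x (hsub a ha b hb e hx) y (hsub a ha b hb e hy)) hz0 hz⟩
    · exact ⟨0, fun a b c => (e ⟨a, b, c⟩).elim⟩
  choose d hd using k2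
  have hdc : Coc s Y d := by
    intro a ha b hb e he h1 h2
    obtain ⟨z, hz⟩ := (hF a ha).1.1
    have e1 := hd a b ha hb h1 z hz
    have e2 := hd b e hb he h2 z (hsub a ha b hb h1 hz)
    have e3 := hd a e ha he (ht a ha b hb e he h1 h2) z hz
    linear_combination e2 + e1 - e3
  obtain ⟨m, hm'⟩ := h d hdc
  refine ⟨fun x => l (f x) x - m (f x), fun x hx y hy a => ?_⟩
  have b := hm x hx y hy a
  have e1 := hm' _ (hf x hx) _ (hf y hy) b
  have e2 := hd _ _ (hf x hx) (hf y hy) b x ⟨hx, hs _ (hf x hx)⟩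
  have e3 := hl _ (hf y hy) x ⟨hx, b⟩ y ⟨hy, hs _ (hf y hy)⟩ a
  simp only
  linear_combination e3 + e2 - e1

omit hs in
theorem Cob.quillen (hF : ∀ y ∈ Y, Conn r (Fb s W f y)) {g : β → β → G} (hg : Coc s Y g)
    (h : Cob r W fun a b => g (f a) (f b)) : Cob s Y g := by
  classical
  obtain ⟨l, hl⟩ := h
  have k1 : ∀ y, ∃ v : G, y ∈ Y → ∀ a ∈ Fb s W f y, v = l a + g (f a) y := by
    intro y
    by_cases hy : y ∈ Y
    · obtain ⟨z, hz⟩ := (hF y hy).1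
      refine ⟨l z + g (f z) y, fun _ a ha => ?_⟩
      refine (hF y hy).const (fun a => l a + g (f a) y) (fun a ha b hb e => ?_) hz ha
      simp only [hl a ha.1 b hb.1 e,
        hg _ (hf a ha.1) _ (hf b hb.1) y hy (hm a ha.1 b hb.1 e) hb.2, add_assoc]
    · exact ⟨0, fun e => (hy e).elim⟩
  choose v hv using k1
  refine ⟨v, fun a ha b hb e => ?_⟩
  obtain ⟨z, hz⟩ := (hF a ha).1
  rw [hv a ha z hz, hv b hb z ⟨hz.1, ht _ (hf z hz.1) a ha b hb hz.2 e⟩,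
    hg _ (hf z hz.1) a ha b hb hz.2 e, add_assoc]

theorem Ac.quillen (hF : ∀ y ∈ Y, Ac r (Fb s W f y)) (h : Ac s Y) : Ac r W :=
  ⟨Conn.quillen hs ht hf (fun y hy => (hF y hy).1) h.1, H0.quillen hs ht hf hm hF h.2⟩

end Quillen

end Rel

section Chains
variable {V : Type*} [DecidableEq V]

theorem mem_top {r : Finset (Finset V)} {x : V} : x ∈ top r ↔ ∃ σ ∈ r, x ∈ σ := by
  simp [top]

theorem sub_top {r : Finset (Finset V)} {σ : Finset V} (h : σ ∈ r) : σ ⊆ top r :=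
  fun _ hx => mem_top.2 ⟨σ, h, hx⟩

theorem top_sub {r : Finset (Finset V)} {ρ : Finset V} (h : ∀ σ ∈ r, σ ⊆ ρ) : top r ⊆ ρ :=
  fun _ hx => by obtain ⟨σ, a, b⟩ := mem_top.1 hx; exact h σ a b

theorem top_mono {r r' : Finset (Finset V)} (h : r ⊆ r') : top r ⊆ top r' :=
  top_sub fun _ a => sub_top (h a)

theorem top_mem {Q : Set (Finset V)} {r : Finset (Finset V)} (h : r ∈ sd Q) : top r ∈ r := by
  obtain ⟨m, hm, hmax⟩ := Finset.exists_max_image r Finset.card h.1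
  have : ∀ σ ∈ r, σ ⊆ m := fun σ hσ => (h.2.2 σ hσ m hm).elim id fun e =>
    (Finset.eq_of_subset_of_card_le e (hmax σ hσ)).symm.subset
  have e : top r = m := (top_sub this).antisymm (sub_top hm)
  rwa [e]

theorem top_mem' {Q : Set (Finset V)} {r : Finset (Finset V)} (h : r ∈ sd Q) : top r ∈ Q :=
  h.2.1 _ (top_mem h)

theorem top_singleton (σ : Finset V) : top {σ} = σ := by simp [top]

omit [DecidableEq V] in
theorem single_mem_sd {Q : Set (Finset V)} {σ : Finset V} : {σ} ∈ sd Q ↔ σ ∈ Q := by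
  simp [sd]

theorem insert_mem_sd {Q : Set (Finset V)} {σ : Finset V} (hσ : σ ∈ Q) {r : Finset (Finset V)}
    (h1 : ∀ ρ ∈ r, ρ ∈ Q) (h2 : ∀ a ∈ r, ∀ b ∈ r, a ⊆ b ∨ b ⊆ a) (h3 : ∀ ρ ∈ r, ρ ⊆ σ) :
    insert σ r ∈ sd Q := by
  refine ⟨Finset.insert_nonempty _ _, fun a ha => ?_, fun a ha b hb => ?_⟩
  · rcases Finset.mem_insert.1 ha with rfl | ha
    exacts [hσ, h1 a ha]
  · rcases Finset.mem_insert.1 ha with e | ha' <;> rcases Finset.mem_insert.1 hb with e' | hb'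
    · rw [e, e']; exact Or.inl subset_rfl
    · rw [e]; exact Or.inr (h3 b hb')
    · rw [e']; exact Or.inl (h3 a ha')
    · exact h2 a ha' b hb'

omit [DecidableEq V] in
theorem sub_mem_sd {Q : Set (Finset V)} {r r' : Finset (Finset V)} (h : r ∈ sd Q) (e : r' ⊆ r)
    (hne : r'.Nonempty) : r' ∈ sd Q :=
  ⟨hne, fun a ha => h.2.1 a (e ha), fun a ha b hb => h.2.2 a (e ha) b (e hb)⟩

omit [DecidableEq V] in
theorem cx_sd (Q : Set (Finset V)) : Cx (sd Q) :=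
  ⟨fun _ h => h.1, fun _ h _ e hne => sub_mem_sd h e hne⟩

theorem ac_fb_top {Q : Set (Finset V)} {y : Finset V} (hy : y ∈ Q) :
    Ac sub (Fb sub (sd Q) top y) := by
  have h1 : Ac sub {r | r ∈ Fb sub (sd Q) top y ∧ y ∈ r} :=
    Ac.of_bot (m := {y}) ⟨⟨single_mem_sd.2 hy, by simp [top_singleton]⟩, by simp⟩
      fun r hr => by simpa using hr.2
  refine h1.up id (insert y) (fun r hr => hr.1) (fun _ _ _ _ e => e) (fun r hr => ?_)
    (fun a _ b _ e => Finset.insert_subset_insert _ e) fun r _ => Finset.subset_insert _ _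
  have h3 : ∀ ρ ∈ r, ρ ⊆ y := fun ρ e => (sub_top e).trans hr.2
  refine ⟨⟨insert_mem_sd hy hr.1.2.1 hr.1.2.2 h3, top_sub fun ρ e => ?_⟩, by simp⟩
  rcases Finset.mem_insert.1 e with rfl | e
  exacts [subset_rfl, h3 ρ e]

theorem Ac.sd {Q : Set (Finset V)} (h : Ac sub Q) : Ac sub (sd Q) :=
  Ac.quillen (f := top) (fun _ _ => subset_rfl) (fun _ _ _ _ _ _ a b => a.trans b)
    (fun _ h => top_mem' h) (fun _ _ _ _ e => top_mono e) (fun _ hy => ac_fb_top hy) h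

/-- chains of `R` that meet both `Q` and its complement -/
def MxCh (R Q : Set (Finset V)) : Set (Finset (Finset V)) :=
  {r | r ∈ Dsc37.sd R ∧ (∃ ρ ∈ r, ρ ∈ Q) ∧ ∃ ρ ∈ r, ρ ∉ Q}

theorem ac_mxCh {R Q : Set (Finset V)} {σ : Finset V} (hσ : σ ∈ R) (htop : ∀ ρ ∈ R, ρ ⊆ σ)
    (hQ : Q ⊆ R) (hσQ : σ ∉ Q) (h : Ac sub Q) : Ac sub (MxCh R Q) := by
  classical
  have h1 : Ac sub {r | r ∈ MxCh R Q ∧ σ ∈ r} := by
    refine h.sd.down (insert σ) (fun r => r.filter (· ∈ Q)) (fun q hq => ?_)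
      (fun a _ b _ e => Finset.insert_subset_insert _ e) (fun r hr => ?_)
      (fun a _ b _ e => Finset.filter_subset_filter _ e) fun r hr => ?_
    · obtain ⟨ρ, hρ⟩ := hq.1
      exact ⟨⟨insert_mem_sd hσ (fun a ha => hQ (hq.2.1 a ha)) hq.2.2
        fun a ha => htop a (hQ (hq.2.1 a ha)),
        ⟨ρ, Finset.mem_insert_of_mem hρ, hq.2.1 ρ hρ⟩, σ, by simp, hσQ⟩, by simp⟩
    · obtain ⟨ρ, a, b⟩ := hr.1.2.1
      exact ⟨⟨ρ, Finset.mem_filter.2 ⟨a, b⟩⟩, fun x hx => (Finset.mem_filter.1 hx).2,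
        fun x hx y hy => hr.1.1.2.2 x (Finset.mem_filter.1 hx).1 y (Finset.mem_filter.1 hy).1⟩
    · exact Finset.insert_subset hr.2 (Finset.filter_subset _ _)
  refine h1.up id (insert σ) (fun r hr => hr.1) (fun _ _ _ _ e => e) (fun r hr => ?_)
    (fun a _ b _ e => Finset.insert_subset_insert _ e) fun r _ => Finset.subset_insert _ _
  obtain ⟨ρ, a, b⟩ := hr.2.1
  exact ⟨⟨insert_mem_sd hσ hr.1.2.1 hr.1.2.2 fun a ha => htop a (hr.1.2.1 a ha),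
    ⟨ρ, Finset.mem_insert_of_mem a, b⟩, σ, by simp, hσQ⟩, by simp⟩

end Chains

end Crest.Agent.X212.Dsc37
end

-- ▼ part X212/Dsc37/Ori
section

/-!
# First subdivision: coorientation, doubly marked edges become antiparallel
-/

namespace Crest.Agent.X212.Dsc37

/-- subdivision of a double cover (the proof of `Lad50.dcSubStmt`, remembering `τ`) -/
theorem dc_sub {G : Type} [AddGroup G] {U B : Dat G} (hU : U.OK) (hB : B.OK) (d : DC U B) :
    ∃ d' : DC U.sub1 B.sub1, d'.τ = Finset.image d.τ := by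
  have pτ : ∀ σ : Finset U.V, (σ.image d.τ).image d.p = σ.image d.p := fun σ => by
    rw [Finset.image_image]; exact Finset.image_congr fun x _ => d.pτ x
  refine ⟨⟨Finset.image d.p, Finset.image d.τ, {σ | σ ∈ U.K ∧ Mt d.E σ}, fun σ => ?_, pτ,
    fun σ ⟨h, a, ha, hE⟩ => ⟨d.τK σ h, d.τ a, Finset.mem_image_of_mem _ ha, d.τE a hE⟩,
    fun σ ⟨h, a, ha, hA⟩ => ⟨h, a, ha, d.AE hA⟩,
    fun σ ⟨h, a, ha, hE⟩ => ⟨d.pK σ h, d.p a, Finset.mem_image_of_mem _ ha, d.pE a hE⟩,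
    fun r hr => Lad50.image_mem_sd d.pK hr, fun r hr => Lad50.image_mem_sd d.τK hr,
    fun r hr σ hσ ρ hρ e => Lad50.eq_of_image_eq (d.inj _ (Lad50.top_memK hr)) (Lad50.sub_top hσ) (Lad50.sub_top hρ) e,
    fun (σ : Finset U.V) ⟨h, a, ha, hE⟩ e => d.free a hE ?_,
    fun (σ : Finset U.V) ⟨h, a, ha, hE⟩ (ρ : Finset U.V) hρ e => ?_,
    fun (σ : Finset U.V) ⟨h, a, ha, hE⟩ (s : Finset (Finset B.V)) hs hσ => ?_,
    fun (σ : Finset U.V) ⟨h, a, ha, hE⟩ (r : Finset (Finset U.V)) hr (r' : Finset (Finset U.V))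
      hr' h1 h2 e => ?_,
    fun (r : Finset (Finset U.V)) hr hm => ?_,
    fun (r : Finset (Finset U.V)) hr (s : Finset (Finset U.V)) hs hm hrs => ?_⟩, rfl⟩
  · exact (Finset.image_image (s := (σ : Finset U.V))).trans
      ((Finset.image_congr fun x _ => d.ττ x).trans Finset.image_id)
  · have h1 : d.τ a ∈ σ := by
      have := Finset.mem_image_of_mem d.τ ha
      rwa [show Finset.image d.τ σ = σ from e] at this
    exact d.inj σ h h1 ha (d.pτ a)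
  · have hρK : ρ ∈ U.K := hρ.2.1 ρ (Finset.mem_singleton_self _)
    have e' : ρ.image d.p = σ.image d.p := e
    obtain ⟨b, hb, eb⟩ := Finset.mem_image.1 (e' ▸ Finset.mem_image_of_mem d.p ha)
    rcases d.fib a hE b (hU.cxK.down ρ hρK _ (Finset.singleton_subset_iff.2 hb)
      (Finset.singleton_nonempty b)) eb with rfl | rfl
    · exact Or.inl (d.uniq b hE ρ hρK σ h hb ha e')
    · exact Or.inr (d.uniq _ (d.τE a hE) ρ hρK _ (d.τK σ h) hb (Finset.mem_image_of_mem _ ha)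
        (e'.trans (pτ σ).symm))
  · obtain ⟨T, hT, haT, eT⟩ := d.lift a hE _ (Lad50.top_memK hs)
      (Lad50.sub_top hσ (Finset.mem_image_of_mem _ ha))
    have k1 : ∀ β ∈ s, (T.filter fun x => d.p x ∈ β).image d.p = β := fun β hβ => by
      ext w
      simp only [Finset.mem_image, Finset.mem_filter]
      constructor
      · rintro ⟨x, ⟨-, h⟩, rfl⟩; exact h
      · intro hw
        obtain ⟨x, hx, rfl⟩ := Finset.mem_image.1 (eT ▸ Lad50.sub_top hβ hw)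
        exact ⟨x, ⟨hx, hw⟩, rfl⟩
    have k2 : ∀ β ∈ s, (T.filter fun x => d.p x ∈ β) ∈ U.K := fun β hβ =>
      hU.cxK.down T hT _ (Finset.filter_subset _ _) (by
        have := hB.cxK.ne β (hs.2.1 β hβ)
        rw [← k1 β hβ] at this
        exact this.of_image)
    refine ⟨s.image fun β => T.filter fun x => d.p x ∈ β, ⟨hs.1.image _, fun ρ hρ => ?_,
      fun ρ hρ ρ' hρ' => ?_⟩, Finset.mem_image.2 ⟨_, hσ, ?_⟩, ?_⟩
    · obtain ⟨β, hβ, rfl⟩ := Finset.mem_image.1 hρ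
      exact k2 β hβ
    · obtain ⟨β, hβ, rfl⟩ := Finset.mem_image.1 hρ
      obtain ⟨β', hβ', rfl⟩ := Finset.mem_image.1 hρ'
      exact (hs.2.2 β hβ β' hβ').imp (fun h => Finset.monotone_filter_right _ fun x _ hx => h hx)
        fun h => Finset.monotone_filter_right _ fun x _ hx => h hx
    · exact d.uniq a hE _ (k2 _ hσ) σ h
        (Finset.mem_filter.2 ⟨haT, Finset.mem_image_of_mem _ ha⟩) ha (k1 _ hσ)
    · exact (Finset.image_image (s := s)).trans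
        ((Finset.image_congr fun β hβ => k1 β hβ).trans Finset.image_id)
  · have e1 : top r = top r' := d.uniq a hE _ (Lad50.top_memK hr) _ (Lad50.top_memK hr') (Lad50.sub_top h1 ha)
      (Lad50.sub_top h2 ha) (by rw [← Lad50.top_image, ← Lad50.top_image]; exact congrArg top e)
    have key : ∀ {r r' : Finset (Finset U.V)}, r ∈ sd U.K → top r = top r' →
        r.image (Finset.image d.p) = r'.image (Finset.image d.p) → r ⊆ r' := by
      intro r r' hr e1 e ρ hρ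
      obtain ⟨ρ', hρ', e2⟩ := Finset.mem_image.1 (e ▸ Finset.mem_image_of_mem _ hρ)
      exact Lad50.eq_of_image_eq (d.inj _ (Lad50.top_memK hr)) (e1 ▸ Lad50.sub_top hρ') (Lad50.sub_top hρ) e2 ▸ hρ'
    exact Finset.Subset.antisymm (key hr e1 e) (key hr' e1.symm e.symm)
  · refine (Lad50.mem_sd_iff hU.cxK hU.cxF hr).trans (Iff.trans ?_
      (Lad50.mem_sd_iff hB.cxK hB.cxF (Lad50.image_mem_sd d.pK hr)).symm)
    rw [Lad50.top_image]
    exact d.bd _ (Lad50.top_memK hr) (Lad50.mt_top hm)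
  · change U.g (top r) (top s) = B.g (top (r.image (Finset.image d.p)))
      (top (s.image (Finset.image d.p)))
    rw [Lad50.top_image, Lad50.top_image]
    exact d.geq _ (Lad50.top_memK hr) _ (Lad50.top_memK hs) (Lad50.mt_top hm) (Lad50.top_mono hrs)


section
variable {V : Type*} [DecidableEq V] {K : Set (Finset V)} {w : V → V → ZMod 2} {o : V → V → Prop}

/-- a coorientation of `w`: `o x y` means that `x` is below and `y` above the surface -/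
structure Ori (K : Set (Finset V)) (w : V → V → ZMod 2) (o : V → V → Prop) : Prop where
  iff : ∀ σ ∈ K, ∀ x ∈ σ, ∀ y ∈ σ, (w x y ≠ 0 ↔ o x y ∨ o y x)
  tri : ∀ σ ∈ K, ∀ x ∈ σ, ∀ y ∈ σ, ∀ z ∈ σ, o x y → o x z ∨ o z y
  asy : ∀ σ ∈ K, ∀ x ∈ σ, ∀ y ∈ σ, ∀ z ∈ σ, o x y → ¬ o y z

/-- `x` is a low vertex of `σ` -/
def Lw (o : V → V → Prop) (σ : Finset V) (x : V) : Prop := ∃ y ∈ σ, o x y

omit [DecidableEq V] in
theorem Mx.mono {σ ρ : Finset V} (h : Mx w σ) (e : σ ⊆ ρ) : Mx w ρ := by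
  obtain ⟨x, a, y, b, c⟩ := h; exact ⟨x, e a, y, e b, c⟩

omit [DecidableEq V] in
theorem Mt.mono {A : Set V} {σ ρ : Finset V} (h : Mt A σ) (e : σ ⊆ ρ) : Mt A ρ := by
  obtain ⟨x, a, b⟩ := h; exact ⟨x, e a, b⟩

theorem exists_ori (hK : Cx K)
    (ec : ∀ σ ∈ K, ∀ x ∈ σ, ∀ y ∈ σ, ∀ z ∈ σ, w x z = w x y + w y z) (hne : (Sf K w).Nonempty)
    (h0 : H0 sub (Sf K w)) : ∃ o, Ori K w o := by
  obtain ⟨σ0, -, x0, -⟩ := hne
  have : ∀ σ : Finset V, ∃ b, σ ∈ K → b ∈ σ := fun σ => by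
    by_cases h : σ ∈ K
    · obtain ⟨b, hb⟩ := hK.ne σ h; exact ⟨b, fun _ => hb⟩
    · exact ⟨x0, fun e => (h e).elim⟩
  choose b hb using this
  obtain ⟨l, hl⟩ := h0 (fun σ ρ => w (b σ) (b ρ)) fun x hx y hy z hz p q =>
    ec z hz.1 _ (q (p (hb x hx.1))) _ (q (hb y hy.1)) _ (hb z hz.1)
  let u : Finset V → V → ZMod 2 := fun σ x => l σ + w (b σ) x
  have k1 : ∀ σ ∈ K, ∀ x ∈ σ, ∀ y ∈ σ, w x y = u σ y - u σ x := fun σ h x hx y hy => by
    simp only [u, ec σ h _ (hb σ h) x hx y hy]; ring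
  have key : ∀ σ ∈ K, ∀ x ∈ σ, ∀ y ∈ σ,
      ((w x y ≠ 0 ∧ u {x, y} x = 0) ↔ u σ x = 0 ∧ u σ y = 1) := by
    intro σ h x hx y hy
    have s : ({x, y} : Finset V) ⊆ σ := Finset.insert_subset hx (Finset.singleton_subset_iff.2 hy)
    have m := hK.down σ h _ s (Finset.insert_nonempty _ _)
    have e : w x y ≠ 0 → u {x, y} x = u σ x := fun q => by
      have q' : Mx w {x, y} := ⟨x, by simp, y, by simp, q⟩
      simp only [u, hl _ ⟨m, q'⟩ σ ⟨h, q'.mono s⟩ s,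
        ec σ h _ (s (hb _ m)) _ (hb σ h) x hx, add_assoc]
    rw [and_congr_right fun q => by rw [e q], k1 σ h x hx y hy]
    generalize u σ x = a; generalize u σ y = c; revert a c; decide
  refine ⟨fun x y => w x y ≠ 0 ∧ u {x, y} x = 0, fun σ h x hx y hy => ?_,
    fun σ h x hx y hy z hz => ?_, fun σ h x hx y hy z hz => ?_⟩
  · rw [key σ h x hx y hy, key σ h y hy x hx, k1 σ h x hx y hy]
    generalize u σ x = a; generalize u σ y = c; revert a c; decide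
  · rw [key σ h x hx y hy, key σ h x hx z hz, key σ h z hz y hy]
    generalize u σ x = a; generalize u σ y = c; generalize u σ z = d; revert a c d; decide
  · rw [key σ h x hx y hy, key σ h y hy z hz]
    generalize u σ x = a; generalize u σ y = c; generalize u σ z = d; revert a c d; decide

namespace Ori
omit [DecidableEq V]
variable (h : Ori K w o) {σ ρ : Finset V} (hσ : σ ∈ K)
include h hσ

theorem lw_iff {x y : V} (hx : x ∈ σ) (hy : y ∈ σ) : o x y ↔ Lw o σ x ∧ ¬ Lw o σ y :=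
  ⟨fun e => ⟨⟨y, hy, e⟩, fun ⟨z, hz, q⟩ => h.asy σ hσ x hx y hy z hz e q⟩,
    fun ⟨⟨z, hz, q⟩, n⟩ => (h.tri σ hσ x hx z hz y hy q).resolve_right fun e => n ⟨z, hz, e⟩⟩

theorem mx_iff (e : ρ ⊆ σ) : Mx w ρ ↔ (∃ x ∈ ρ, Lw o σ x) ∧ ∃ y ∈ ρ, ¬ Lw o σ y := by
  constructor
  · rintro ⟨x, hx, y, hy, q⟩
    rcases (h.iff σ hσ x (e hx) y (e hy)).1 q with q | q
    · have := (h.lw_iff hσ (e hx) (e hy)).1 q
      exact ⟨⟨x, hx, this.1⟩, y, hy, this.2⟩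
    · have := (h.lw_iff hσ (e hy) (e hx)).1 q
      exact ⟨⟨y, hy, this.1⟩, x, hx, this.2⟩
  · rintro ⟨⟨x, hx, a⟩, y, hy, b⟩
    exact ⟨x, hx, y, hy, (h.iff σ hσ x (e hx) y (e hy)).2
      (Or.inl ((h.lw_iff hσ (e hx) (e hy)).2 ⟨a, b⟩))⟩

theorem lw_sub (e : ρ ⊆ σ) (m : Mx w ρ) {x : V} (hx : x ∈ ρ) : Lw o ρ x ↔ Lw o σ x := by
  obtain ⟨-, y, hy, b⟩ := (h.mx_iff hσ e).1 m
  exact ⟨fun ⟨z, hz, q⟩ => ⟨z, e hz, q⟩,
    fun a => ⟨y, hy, (h.lw_iff hσ (e hx) (e hy)).2 ⟨a, b⟩⟩⟩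

end Ori

theorem ac_faces {Q : Set (Finset V)} {W : Finset V} (hW : W.Nonempty)
    (h1 : ∀ ρ ∈ Q, (ρ ∩ W).Nonempty) (h2 : ∀ ρ ⊆ W, ρ.Nonempty → ρ ∈ Q) : Ac sub Q :=
  (Ac.of_top (r := sub) (W := {ρ | ρ ⊆ W ∧ ρ.Nonempty}) (m := W) ⟨subset_rfl, hW⟩
    fun _ h => h.1).down id (· ∩ W) (fun ρ h => h2 ρ h.1 h.2) (fun _ _ _ _ e => e)
    (fun ρ h => ⟨Finset.inter_subset_right, h1 ρ h⟩)
    (fun _ _ _ _ e => Finset.inter_subset_inter_right e) fun _ _ => Finset.inter_subset_left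

/-- the non-empty faces of `σ` -/
def fcs (σ : Finset V) : Set (Finset V) := {ρ | ρ.Nonempty ∧ ρ ⊆ σ}

omit [DecidableEq V] in
theorem MxCh_congr {R Q Q' : Set (Finset V)}
    (h : (∀ ρ ∈ R, (ρ ∈ Q ↔ ρ ∈ Q')) ∨ ∀ ρ ∈ R, (ρ ∈ Q ↔ ρ ∉ Q')) : MxCh R Q = MxCh R Q' := by
  ext r
  refine and_congr_right fun hr => ?_
  rcases h with h | h
  · exact and_congr (exists_congr fun ρ => and_congr_right fun a => h ρ (hr.2.1 ρ a))
      (exists_congr fun ρ => and_congr_right fun a => not_congr (h ρ (hr.2.1 ρ a)))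
  · rw [and_comm]
    exact and_congr (exists_congr fun ρ => and_congr_right fun a => by
      rw [h ρ (hr.2.1 ρ a), not_not]) (exists_congr fun ρ => and_congr_right fun a =>
        h ρ (hr.2.1 ρ a))

theorem mem_sd_fcs {L : Set (Finset V)} (hL : Cx L) {σ : Finset V} (hσ : σ ∈ L)
    {r : Finset (Finset V)} : r ∈ sd (fcs σ) ↔ r ∈ sd L ∧ top r ⊆ σ :=
  ⟨fun h => ⟨⟨h.1, fun ρ a => hL.down σ hσ ρ (h.2.1 ρ a).2 (h.2.1 ρ a).1, h.2.2⟩,
    top_sub fun ρ a => (h.2.1 ρ a).2⟩,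
    fun h => ⟨h.1.1, fun ρ a => ⟨hL.ne ρ (h.1.2.1 ρ a), (sub_top a).trans h.2⟩, h.1.2.2⟩⟩

/-- colour of the barycentre of `ρ` inside `σ` -/
def lc (w : V → V → ZMod 2) (o : V → V → Prop) (T : Finset V → Prop) (σ ρ : Finset V) : Prop :=
  (Mx w ρ ∧ T ρ) ∨ (¬ Mx w ρ ∧ ∃ x ∈ ρ, Lw o σ x)

/-- the subdivided coorientation -/
def o1 (w : V → V → ZMod 2) (o : V → V → Prop) (T : Finset V → Prop) (ρ ρ' : Finset V) : Prop :=
  Mx w (ρ ∪ ρ') ∧ lc w o T (ρ ∪ ρ') ρ ∧ ¬ lc w o T (ρ ∪ ρ') ρ'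

open Classical in
/-- the subdivided cocycle -/
noncomputable def w1 (w : V → V → ZMod 2) (o : V → V → Prop) (T : Finset V → Prop)
    (ρ ρ' : Finset V) : ZMod 2 := if o1 w o T ρ ρ' ∨ o1 w o T ρ' ρ then 1 else 0

variable {T : Finset V → Prop}

theorem o1_iff (_ : Cx K) (h : Ori K w o) {σ ρ ρ' : Finset V} (hσ : σ ∈ K) (e : ρ ⊆ σ)
    (e' : ρ' ⊆ σ) (hne : ρ'.Nonempty) : o1 w o T ρ ρ' ↔ lc w o T σ ρ ∧ ¬ lc w o T σ ρ' := by
  have s : ρ ∪ ρ' ⊆ σ := Finset.union_subset e e'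
  have k : Mx w (ρ ∪ ρ') → ∀ π ⊆ ρ ∪ ρ', (lc w o T (ρ ∪ ρ') π ↔ lc w o T σ π) := fun m π q =>
    or_congr Iff.rfl (and_congr Iff.rfl (exists_congr fun x => and_congr_right fun a =>
      h.lw_sub hσ s m (q a)))
  constructor
  · rintro ⟨m, a, b⟩
    exact ⟨(k m _ Finset.subset_union_left).1 a, fun q => b ((k m _ Finset.subset_union_right).2 q)⟩
  · rintro ⟨a, b⟩
    have m : Mx w (ρ ∪ ρ') := by
      rcases a with a | ⟨-, x, hx, a⟩
      · exact a.1.mono Finset.subset_union_left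
      · by_cases q : Mx w ρ'
        · exact q.mono Finset.subset_union_right
        · obtain ⟨y, hy⟩ := hne
          exact (h.mx_iff hσ s).2 ⟨⟨x, Finset.mem_union_left _ hx, a⟩, y,
            Finset.mem_union_right _ hy, fun c => b (Or.inr ⟨q, y, hy, c⟩)⟩
    exact ⟨m, (k m _ Finset.subset_union_left).2 a,
      fun q => b ((k m _ Finset.subset_union_right).1 q)⟩

theorem w1_ne {ρ ρ' : Finset V} : w1 w o T ρ ρ' ≠ 0 ↔ o1 w o T ρ ρ' ∨ o1 w o T ρ' ρ := by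
  unfold w1; split_ifs with h <;> simp [h]

theorem ori_sub (hK : Cx K) (h : Ori K w o) : Ori (sd K) (w1 w o T) (o1 w o T) := by
  have key : ∀ r ∈ sd K, ∀ x ∈ r, ∀ y ∈ r,
      (o1 w o T x y ↔ lc w o T (top r) x ∧ ¬ lc w o T (top r) y) := fun r hr x hx y hy =>
    o1_iff hK h (top_mem' hr) (sub_top hx) (sub_top hy) (hK.ne y (hr.2.1 y hy))
  refine ⟨fun _ _ _ _ _ _ => w1_ne, fun r hr x hx y hy z hz => ?_, fun r hr x hx y hy z hz => ?_⟩
  · rw [key r hr x hx y hy, key r hr x hx z hz, key r hr z hz y hy]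
    exact fun q => (em (lc w o T (top r) z)).elim (fun e => Or.inr ⟨e, q.2⟩) fun e => Or.inl ⟨q.1, e⟩
  · rw [key r hr x hx y hy, key r hr y hy z hz]; tauto

omit [DecidableEq V] in
theorem Ori.ec (h : Ori K w o) : ∀ σ ∈ K, ∀ x ∈ σ, ∀ y ∈ σ, ∀ z ∈ σ, w x z = w x y + w y z := by
  intro σ hσ x hx y hy z hz
  have k : ∀ a ∈ σ, ∀ b ∈ σ, (w a b ≠ 0 ↔ ¬ (Lw o σ a ↔ Lw o σ b)) := fun a ha b hb => by
    rw [h.iff σ hσ a ha b hb, h.lw_iff hσ ha hb, h.lw_iff hσ hb ha]; tauto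
  have q : (w x z ≠ 0 ↔ ¬ (w x y ≠ 0 ↔ w y z ≠ 0)) := by
    rw [k x hx z hz, k x hx y hy, k y hy z hz]; tauto
  revert q; generalize w x z = a; generalize w x y = b; generalize w y z = c
  revert a b c; decide

theorem mx_top {r : Finset (Finset V)} (h : Mx (w1 w o T) r) : Mx w (top r) := by
  obtain ⟨x, hx, y, hy, q⟩ := h
  rcases w1_ne.1 q with q | q
  · exact q.1.mono (Finset.union_subset (sub_top hx) (sub_top hy))
  · exact q.1.mono (Finset.union_subset (sub_top hy) (sub_top hx))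

theorem ac_fb1 (hK : Cx K) (h : Ori K w o) {L : Set (Finset V)} (hL : Cx L) (hLK : L ⊆ K)
    {σ : Finset V} (hσ : σ ∈ Sf L w) : Ac sub (Fb sub (Sf (sd L) (w1 w o T)) top σ) := by
  classical
  have sK := hLK hσ.1
  have e : Fb sub (Sf (sd L) (w1 w o T)) top σ = MxCh (fcs σ) {ρ | lc w o T σ ρ} := by
    ext r
    have : r ∈ sd (fcs σ) → (Mx (w1 w o T) r ↔
        (∃ ρ ∈ r, lc w o T σ ρ) ∧ ∃ ρ ∈ r, ¬ lc w o T σ ρ) := fun hr =>
      ⟨fun ⟨x, hx, y, hy, q⟩ => by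
        rcases w1_ne.1 q with q | q
        · have := (o1_iff hK h sK (hr.2.1 x hx).2 (hr.2.1 y hy).2 (hr.2.1 y hy).1).1 q
          exact ⟨⟨x, hx, this.1⟩, y, hy, this.2⟩
        · have := (o1_iff hK h sK (hr.2.1 y hy).2 (hr.2.1 x hx).2 (hr.2.1 x hx).1).1 q
          exact ⟨⟨y, hy, this.1⟩, x, hx, this.2⟩,
      fun ⟨⟨x, hx, a⟩, y, hy, b⟩ => ⟨x, hx, y, hy, w1_ne.2 (Or.inl
        ((o1_iff hK h sK (hr.2.1 x hx).2 (hr.2.1 y hy).2 (hr.2.1 y hy).1).2 ⟨a, b⟩))⟩⟩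
    constructor
    · rintro ⟨⟨a, b⟩, c⟩
      have a' := (mem_sd_fcs hL hσ.1).2 ⟨a, c⟩
      exact ⟨a', (this a').1 b⟩
    · rintro ⟨a, b⟩
      have a' := (mem_sd_fcs hL hσ.1).1 a
      exact ⟨⟨a'.1, (this a).2 b⟩, a'.2⟩
  obtain ⟨⟨x, hx, a⟩, y, hy, b⟩ := (h.mx_iff sK subset_rfl).1 hσ.2
  have sσ : σ ∈ fcs σ := ⟨⟨x, hx⟩, subset_rfl⟩
  rw [e]
  by_cases q : lc w o T σ σ
  · rw [MxCh_congr (Q' := {ρ | ρ ∈ fcs σ ∧ ¬ lc w o T σ ρ})
      (Or.inr fun ρ m => by simp [m])]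
    refine ac_mxCh sσ (fun ρ m => m.2) (fun ρ m => m.1) (fun m => m.2 q)
      (ac_faces (W := σ.filter fun z => ¬ Lw o σ z) ⟨y, by simp [hy, b]⟩ (fun ρ m => ?_)
        fun ρ m n => ?_)
    · by_cases c : Mx w ρ
      · obtain ⟨-, z, hz, d⟩ := (h.mx_iff sK m.1.2).1 c
        exact ⟨z, by simp [hz, d, m.1.2 hz]⟩
      · obtain ⟨z, hz⟩ := m.1.1
        have d : ¬ Lw o σ z := fun d => m.2 (Or.inr ⟨c, z, hz, d⟩)
        exact ⟨z, by simp [hz, d, m.1.2 hz]⟩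
    · have s := m.trans (Finset.filter_subset _ _)
      have d : ¬ ∃ z ∈ ρ, Lw o σ z := fun ⟨z, hz, d⟩ => (Finset.mem_filter.1 (m hz)).2 d
      exact ⟨⟨n, s⟩, fun c => c.elim (fun c => d ((h.mx_iff sK s).1 c.1).1) fun c => d c.2⟩
  · rw [MxCh_congr (Q' := {ρ | ρ ∈ fcs σ ∧ lc w o T σ ρ}) (Or.inl fun ρ m => by simp [m])]
    refine ac_mxCh sσ (fun ρ m => m.2) (fun ρ m => m.1) (fun m => q m.2)
      (ac_faces (W := σ.filter fun z => Lw o σ z) ⟨x, by simp [hx, a]⟩ (fun ρ m => ?_)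
        fun ρ m n => ?_)
    · obtain ⟨z, hz, d⟩ : ∃ z ∈ ρ, Lw o σ z :=
        m.2.elim (fun c => ((h.mx_iff sK m.1.2).1 c.1).1) fun c => c.2
      exact ⟨z, by simp [hz, d, m.1.2 hz]⟩
    · have s := m.trans (Finset.filter_subset _ _)
      obtain ⟨z, hz⟩ := n
      exact ⟨⟨⟨z, hz⟩, s⟩, Or.inr ⟨fun c => by
        obtain ⟨-, v, hv, d⟩ := (h.mx_iff sK s).1 c
        exact d (Finset.mem_filter.1 (m hv)).2, z, hz, (Finset.mem_filter.1 (m hz)).2⟩⟩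

end

variable {G : Type} [AddGroup G]

theorem Dat.Disc.mt {X : Dat G} {w : X.V → X.V → ZMod 2} (h : X.Disc w) {σ : Finset X.V}
    (hσ : σ ∈ X.K) (m : Mx w σ) : Mt X.A σ := by
  obtain ⟨x, hx, y, hy, q⟩ := m
  exact (h.supp σ hσ x hx y hy q).elim (fun a => ⟨x, hx, a⟩) fun a => ⟨y, hy, a⟩

theorem Dat.Disc.sub1 {X : Dat G} (hX : X.OK) {w : X.V → X.V → ZMod 2} (h : X.Disc w)
    {o : X.V → X.V → Prop} (ho : Ori X.K w o) (T : Finset X.V → Prop) :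
    X.sub1.Disc (w1 w o T) := by
  have rf : ∀ {Y : Set (Finset X.V)}, ∀ y ∈ Y, sub y y := fun _ _ => subset_rfl
  have tr : ∀ {Y : Set (Finset X.V)}, ∀ x ∈ Y, ∀ y ∈ Y, ∀ z ∈ Y, sub x y → sub y z → sub x z :=
    fun _ _ _ _ _ _ a b => a.trans b
  have mp : ∀ {L : Set (Finset X.V)}, ∀ r ∈ Sf (sd L) (w1 w o T), top r ∈ Sf L w :=
    fun r hr => ⟨top_mem' hr.1, mx_top hr.2⟩
  have mm : ∀ {Y : Set (Finset (Finset X.V))}, ∀ x ∈ Y, ∀ y ∈ Y, sub x y → sub (top x) (top y) :=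
    fun _ _ _ _ e => top_mono e
  have a := Ac.quillen (r := sub) rf tr mp mm
    (fun y hy => ac_fb1 (T := T) hX.cxK ho hX.cxK subset_rfl hy) ⟨h.conn, h.h0⟩
  refine ⟨(ori_sub hX.cxK ho).ec, fun r hr x hx y hy q => ?_, a.1, a.2,
    Conn.quillen rf tr mp (fun y hy => (ac_fb1 hX.cxK ho hX.cxF hX.FK hy).1) h.connB,
    fun q => h.ess (Cob.quillen tr mp mm (fun y hy => (ac_fb1 hX.cxK ho hX.cxF hX.FK hy).1)
      (hX.coc.mono (fun σ m => ⟨m.1, h.mt (hX.FK m.1) m.2⟩) fun _ _ _ _ e => e) q)⟩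
  have m : Mx w (x ∪ y) := (w1_ne.1 q).elim (fun q => q.1) fun q => Finset.union_comm y x ▸ q.1
  rcases hr.2.2 x hx y hy with e | e
  · rw [Finset.union_eq_right.2 e] at m
    exact Or.inr ⟨hr.2.1 y hy, h.mt (hr.2.1 y hy) m⟩
  · rw [Finset.union_eq_left.2 e] at m
    exact Or.inl ⟨hr.2.1 x hx, h.mt (hr.2.1 x hx) m⟩

omit [AddGroup G] in
theorem DC.img_img {U B : Dat G} (d : DC U B) (σ : Finset U.V) :
    (σ.image d.τ).image d.τ = σ :=
  Finset.image_image.trans ((Finset.image_congr fun x _ => d.ττ x).trans Finset.image_id)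

omit [AddGroup G] in
theorem DC.img_ne {U B : Dat G} (d : DC U B) {σ : Finset U.V} (h : σ ∈ U.K) (m : Mt d.E σ) :
    σ.image d.τ ≠ σ := fun e => by
  obtain ⟨a, ha, hE⟩ := m
  exact d.free a hE (d.inj σ h (e ▸ Finset.mem_image_of_mem d.τ ha) ha (d.pτ a))

/-- **first subdivision** -/
theorem step1 {U B : Dat G} (hU : U.OK) (hB : B.OK) (d : DC U B) (h : U.HasDisc) :
    ∃ (d' : DC U.sub1 B.sub1) (w : U.sub1.V → U.sub1.V → ZMod 2) (o : U.sub1.V → U.sub1.V → Prop),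
      U.sub1.Disc w ∧ Ori U.sub1.K w o ∧
        ∀ σ ∈ U.sub1.K, ∀ x ∈ σ, ∀ y ∈ σ, o x y → ¬ o (d'.τ x) (d'.τ y) := by
  obtain ⟨w, h⟩ := h
  obtain ⟨o, ho⟩ := exists_ori hU.cxK h.ec h.conn.1 h.h0
  obtain ⟨d', e⟩ := dc_sub hU hB d
  let n := Fintype.equivFin (Finset U.V)
  let T : Finset U.V → Prop := fun ρ => Mx w (ρ.image d.τ) ∧ n ρ < n (ρ.image d.τ)
  refine ⟨d', w1 w o T, o1 w o T, h.sub1 hU ho T, ori_sub hU.cxK ho, ?_⟩
  intro r hr (x : Finset U.V) hx (y : Finset U.V) hy a b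
  rw [e] at b
  have k : ∀ σ ρ, Mx w ρ → (lc w o T σ ρ ↔ T ρ) := fun σ ρ m =>
    ⟨fun c => c.elim (fun c => c.2) fun c => (c.1 m).elim, fun c => Or.inl ⟨m, c⟩⟩
  obtain ⟨a1, a2, a3⟩ := a
  obtain ⟨b1, b2, b3⟩ := b
  rw [← Finset.image_union] at b1
  rcases hr.2.2 x hx y hy with q | q
  · rw [Finset.union_eq_right.2 q] at a1 b1
    rw [k _ _ a1] at a3
    rw [k _ _ b1] at b3
    simp only [T, d.img_img, a1, b1, true_and, not_lt] at a3 b3
    obtain ⟨z, hz, hA⟩ := h.mt (hr.2.1 y hy) a1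
    exact d.img_ne (hr.2.1 y hy) ⟨z, hz, d.AE hA⟩ (n.injective (le_antisymm a3 b3))
  · rw [Finset.union_eq_left.2 q] at a1 b1
    rw [k _ _ a1] at a2
    rw [k _ _ b1] at b2
    simp only [T, d.img_img] at a2 b2
    exact lt_asymm a2.2 b2.2

end Crest.Agent.X212.Dsc37
end

-- ▼ part X212/Dsc37/Arm
section

/-!
# `H^1` of a connected two-level poset of valence two (a circle or an arc)
-/

namespace Crest.Agent.X212.Dsc37

open Finset

variable {α : Type*} [Fintype α] {r : α → α → Prop} {J lo bd : Set α}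

open Classical in
/-- strict pairs in `J` -/
noncomputable def prs (r : α → α → Prop) (J : Set α) : Finset (α × α) :=
  univ.filter fun p => p.1 ∈ J ∧ p.2 ∈ J ∧ r p.1 p.2 ∧ p.1 ≠ p.2

theorem mem_prs {p : α × α} : p ∈ prs r J ↔ p.1 ∈ J ∧ p.2 ∈ J ∧ r p.1 p.2 ∧ p.1 ≠ p.2 := by
  simp [prs]

/-- the period of a cochain -/
noncomputable def per (r : α → α → Prop) (J : Set α) (c : α → α → ZMod 2) : ZMod 2 :=
  ∑ p ∈ prs r J, c p.1 p.2

/-- elements strictly above / below -/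
def abv (r : α → α → Prop) (J : Set α) (x : α) : Set α := {y | y ∈ J ∧ r x y ∧ x ≠ y}
def blw (r : α → α → Prop) (J : Set α) (y : α) : Set α := {x | x ∈ J ∧ r x y ∧ x ≠ y}

open Classical in
theorem sum_prs_fst {M : Type*} [AddCommMonoid M] (f : α → M) :
    ∑ p ∈ prs r J, f p.1 = ∑ x ∈ univ.filter (· ∈ J), (abv r J x).ncard • f x := by
  rw [prs, sum_filter, Fintype.sum_prod_type, sum_filter]
  refine sum_congr rfl fun x _ => ?_
  split_ifs with hx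
  · rw [← sum_filter]
    simp only [sum_const]
    congr 1
    rw [← Set.ncard_coe_finset]; congr 1; ext y; simp [abv, hx]
  · simp [hx]

open Classical in
theorem sum_prs_snd {M : Type*} [AddCommMonoid M] (f : α → M) :
    ∑ p ∈ prs r J, f p.2 = ∑ y ∈ univ.filter (· ∈ J), (blw r J y).ncard • f y := by
  rw [prs, sum_filter, Fintype.sum_prod_type_right, sum_filter]
  refine sum_congr rfl fun x _ => ?_
  split_ifs with hx
  · rw [← sum_filter]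
    simp only [sum_const]
    congr 1
    rw [← Set.ncard_coe_finset]; congr 1; ext y; simp [blw, hx]
  · simp [hx]

/-- a two-level poset of valence two, with end points `bd` of valence one -/
structure Two (r : α → α → Prop) (J lo bd : Set α) : Prop where
  lv : ∀ x ∈ J, ∀ y ∈ J, r x y → x ≠ y → x ∈ lo ∧ y ∉ lo
  hi : ∀ y ∈ J, y ∉ lo → (blw r J y).ncard = 2
  loI : ∀ x ∈ J, x ∈ lo → x ∉ bd → (abv r J x).ncard = 2
  loB : ∀ x ∈ J, x ∈ bd → x ∈ lo ∧ (abv r J x).ncard = 1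

omit [Fintype α] in
theorem Two.abv_hi (h : Two r J lo bd) {x : α} (hx : x ∈ J) (hl : x ∉ lo) :
    (abv r J x).ncard = 0 := by
  have : abv r J x = ∅ := by
    ext y; exact ⟨fun e => hl (h.lv x hx y e.1 e.2.1 e.2.2).1, fun e => e.elim⟩
  simp [this]

omit [Fintype α] in
theorem Two.blw_lo (h : Two r J lo bd) {x : α} (hx : x ∈ J) (hl : x ∈ lo) :
    (blw r J x).ncard = 0 := by
  have : blw r J x = ∅ := by
    ext y; exact ⟨fun e => (h.lv y e.1 x hx e.2.1 e.2.2).2 hl, fun e => e.elim⟩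
  simp [this]

open Classical in
theorem Two.count (h : Two r J lo bd) :
    2 * J.ncard = 2 * (prs r J).card + (J ∩ bd).ncard ∧
    2 * (J ∩ lo).ncard = (prs r J).card + (J ∩ bd).ncard ∧
    2 * (J \ lo).ncard = (prs r J).card := by
  have e1 := sum_prs_fst (r := r) (J := J) (fun _ => (1 : ℕ))
  have e2 := sum_prs_snd (r := r) (J := J) (fun _ => (1 : ℕ))
  simp only [sum_const, smul_eq_mul, mul_one] at e1 e2
  have c : ∀ T : Set α, (J ∩ T).ncard = ∑ x ∈ univ.filter (· ∈ J), if x ∈ T then 1 else 0 := by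
    intro T
    rw [← card_filter, ← Set.ncard_coe_finset]; congr 1; ext y; simp
  have a2 : 2 * (J ∩ lo).ncard = (prs r J).card + (J ∩ bd).ncard := by
    rw [c, c, e1, mul_sum, ← sum_add_distrib]
    refine sum_congr rfl fun x hx => ?_
    have hx : x ∈ J := by simpa using hx
    by_cases hb : x ∈ bd
    · simp [hb, (h.loB x hx hb).1, (h.loB x hx hb).2]
    · by_cases hl : x ∈ lo
      · simp [hb, hl, h.loI x hx hl hb]
      · simp [hb, hl, h.abv_hi hx hl]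
  have a3 : 2 * (J \ lo).ncard = (prs r J).card := by
    rw [Set.sdiff_eq, c, e2, mul_sum]
    refine sum_congr rfl fun x hx => ?_
    have hx : x ∈ J := by simpa using hx
    by_cases hl : x ∈ lo
    · simp [hl, h.blw_lo hx hl]
    · simp [hl, h.hi x hx hl]
  have a1 := Set.ncard_inter_add_ncard_sdiff_eq_ncard J lo
  omega

/-- the coboundary map -/
def dmap (r : α → α → Prop) (J : Set α) : (J → ZMod 2) →ₗ[ZMod 2] (prs r J → ZMod 2) where
  toFun l p := l ⟨p.1.1, (mem_prs.1 p.2).1⟩ + l ⟨p.1.2, (mem_prs.1 p.2).2.1⟩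
  map_add' a b := by funext p; simp only [Pi.add_apply]; ring
  map_smul' a b := by funext p; simp only [Pi.smul_apply, smul_eq_mul, RingHom.id_apply]; ring

theorem z2_add_eq_zero {a b : ZMod 2} : a + b = 0 ↔ a = b := by revert a b; decide

theorem rank_dmap (hc : Conn r J) :
    Module.finrank (ZMod 2) (LinearMap.range (dmap r J)) + 1 = J.ncard := by
  classical
  have e := LinearMap.finrank_range_add_finrank_ker (dmap r J)
  obtain ⟨x0, hx0⟩ := hc.1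
  have k : LinearMap.ker (dmap r J) = Submodule.span (ZMod 2) {fun _ => 1} := by
    ext l
    rw [LinearMap.mem_ker, Submodule.mem_span_singleton]
    constructor
    · intro hl
      refine ⟨l ⟨x0, hx0⟩, funext fun y => ?_⟩
      have := hc.const (fun z => if e : z ∈ J then l ⟨z, e⟩ else 0) (fun a ha b hb e => by
        by_cases e' : a = b
        · rw [e']
        · have := congrFun hl ⟨(a, b), mem_prs.2 ⟨ha, hb, e, e'⟩⟩
          simp only [ha, hb, dif_pos]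
          exact z2_add_eq_zero.1 this) hx0 y.2
      simpa [hx0] using this
    · rintro ⟨a, rfl⟩
      funext p
      exact z2_add_eq_zero.2 rfl
  rw [k, finrank_span_singleton (fun h => by simpa using congrFun h ⟨x0, hx0⟩)] at e
  rw [e, Module.finrank_fintype_fun_eq_card, ← Nat.card_coe_set_eq, Nat.card_eq_fintype_card]

theorem cob_of_range {c : α → α → ZMod 2} (h0 : ∀ x ∈ J, r x x → c x x = 0)
    (h : (fun p : prs r J => c p.1.1 p.1.2) ∈ LinearMap.range (dmap r J)) : Cob r J c := by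
  classical
  obtain ⟨l, hl⟩ := h
  refine ⟨fun z => if e : z ∈ J then l ⟨z, e⟩ else 0, fun a ha b hb e => ?_⟩
  by_cases e' : a = b
  · subst e'; rw [h0 a ha e, add_zero]
  · have : l ⟨a, ha⟩ + l ⟨b, hb⟩ = c a b := congrFun hl ⟨(a, b), mem_prs.2 ⟨ha, hb, e, e'⟩⟩
    simp only [ha, hb, dif_pos, ← this]
    generalize l ⟨a, ha⟩ = u; generalize l ⟨b, hb⟩ = v; revert u v; decide

theorem Two.per_d (h : Two r J lo bd) (hb : J ∩ bd = ∅) (l : α → ZMod 2) :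
    per r J (fun x y => l x + l y) = 0 := by
  classical
  simp only [per, sum_add_distrib]
  rw [sum_prs_fst, sum_prs_snd, ← sum_add_distrib]
  refine sum_eq_zero fun x hx => ?_
  have hx : x ∈ J := by simpa using hx
  have nb : x ∉ bd := fun e => (hb ▸ (⟨hx, e⟩ : x ∈ J ∩ bd) : x ∈ (∅ : Set α))
  have t : (2 : ℕ) • l x = 0 := by rw [two_nsmul]; exact z2_add_eq_zero.2 rfl
  by_cases hl : x ∈ lo
  · rw [h.loI x hx hl nb, h.blw_lo hx hl, t]; simp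
  · rw [h.hi x hx hl, h.abv_hi hx hl, t]; simp

/-- a circle or an arc -/
theorem Two.arm (h : Two r J lo bd) (hc : Conn r J) :
    (J ∩ bd = ∅ ∨ ((J ∩ bd).ncard = 2 ∧ Odd J.ncard)) ∧
    ∀ c : α → α → ZMod 2, (∀ x ∈ J, r x x → c x x = 0) → ((J ∩ bd).Nonempty ∨ per r J c = 0) →
      Cob r J c := by
  classical
  obtain ⟨c1, c2, c3⟩ := h.count
  have rk := rank_dmap hc
  have le := Submodule.finrank_le (LinearMap.range (dmap r J))
  rw [Module.finrank_fintype_fun_eq_card, Fintype.card_coe] at le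
  rcases (J ∩ bd).eq_empty_or_nonempty with hb | hb
  · refine ⟨Or.inl hb, fun c h0 hp => ?_⟩
    have hp : per r J c = 0 := hp.resolve_left (by simp [hb])
    rw [hb, Set.ncard_empty] at c1
    let σ : (prs r J → ZMod 2) →ₗ[ZMod 2] ZMod 2 :=
      { toFun := fun u => ∑ p, u p
        map_add' := fun a b => by simp [sum_add_distrib]
        map_smul' := fun a b => by simp [mul_sum] }
    have hle : LinearMap.range (dmap r J) ≤ LinearMap.ker σ := by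
      rintro _ ⟨l, rfl⟩
      have := h.per_d hb fun z => if e : z ∈ J then l ⟨z, e⟩ else 0
      rw [per, ← sum_coe_sort] at this
      rw [LinearMap.mem_ker, ← this]
      refine sum_congr rfl fun p _ => ?_
      simp only [(mem_prs.1 p.2).1, (mem_prs.1 p.2).2.1, dif_pos]; rfl
    have hne : LinearMap.ker σ ≠ ⊤ := by
      intro e
      have hpos : 0 < (prs r J).card := by omega
      obtain ⟨p, hp⟩ := card_pos.1 hpos
      have : (Pi.single ⟨p, hp⟩ 1 : prs r J → ZMod 2) ∈ LinearMap.ker σ := e ▸ trivial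
      simp [σ, LinearMap.mem_ker] at this
    have lt := Submodule.finrank_lt hne
    rw [Module.finrank_fintype_fun_eq_card, Fintype.card_coe] at lt
    have eq : LinearMap.range (dmap r J) = LinearMap.ker σ :=
      Submodule.eq_of_le_of_finrank_le hle (by omega)
    refine cob_of_range h0 (eq ▸ ?_)
    rw [LinearMap.mem_ker, ← hp, per, ← sum_coe_sort]; rfl
  · have pos : 0 < (J ∩ bd).ncard := (Set.ncard_pos).2 hb
    refine ⟨Or.inr ⟨by omega, ?_⟩, fun c h0 _ => cob_of_range h0 ?_⟩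
    · rw [Nat.odd_iff]; omega
    · have : LinearMap.range (dmap r J) = ⊤ := by
        apply Submodule.eq_top_of_finrank_eq
        rw [Module.finrank_fintype_fun_eq_card, Fintype.card_coe]; omega
      rw [this]; trivial

end Crest.Agent.X212.Dsc37
end

-- ▼ part X212/Dsc37/Abs
section

/-!
# The abstract cut and paste setting: a surface poset with half cells, states, cut relation
-/

namespace Crest.Agent.X212.Dsc37

open Finset

/-- the Klein four group -/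
abbrev K4 := ZMod 2 × ZMod 2
/-- flip of the two arms -/
def fl : K4 := (1, 0)
/-- the deck transformation -/
def dk : K4 := (0, 1)

theorem K4.add_self (u : K4) : u + u = 0 := by revert u; decide
theorem fl_ne : fl ≠ 0 := by decide

/-- component of `x0` -/
def cmp {α : Type*} (r : α → α → Prop) (W : Set α) (x0 : α) : Set α :=
  {y | y ∈ W ∧ ∀ κ : α → Prop, (∀ a ∈ W, ∀ b ∈ W, r a b → (κ a ↔ κ b)) → (κ x0 ↔ κ y)}

theorem cmp_closed {α : Type*} {r : α → α → Prop} {W : Set α} {x0 a b : α} (ha : a ∈ W)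
    (hb : b ∈ W) (e : r a b) : a ∈ cmp r W x0 ↔ b ∈ cmp r W x0 :=
  ⟨fun h => ⟨hb, fun κ hκ => (h.2 κ hκ).trans (hκ a ha b hb e)⟩,
    fun h => ⟨ha, fun κ hκ => (h.2 κ hκ).trans (hκ a ha b hb e).symm⟩⟩

theorem cmp_conn {α : Type*} {r : α → α → Prop} {W : Set α} {x0 : α} (h0 : x0 ∈ W) :
    x0 ∈ cmp r W x0 ∧ Conn r (cmp r W x0) := by
  have m0 : x0 ∈ cmp r W x0 := ⟨h0, fun _ _ => Iff.rfl⟩
  refine ⟨m0, ⟨x0, m0⟩, fun κ hκ => ?_⟩
  have key : ∀ y ∈ cmp r W x0, (κ x0 ↔ κ y) := by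
    intro y hy
    have := hy.2 (fun z => z ∈ cmp r W x0 ∧ κ z) fun a ha b hb e => by
      by_cases h : a ∈ cmp r W x0
      · have h' := (cmp_closed ha hb e).1 h
        simp only [h, h', true_and]; exact hκ a h b h' e
      · have h' : b ∉ cmp r W x0 := fun e' => h ((cmp_closed ha hb e).2 e')
        simp only [h, h', false_and]
    simpa only [m0, hy, true_and] using this
  exact fun x hx y hy => (key x hx).symm.trans (key y hy)

theorem even_of_invol {α : Type*} [Fintype α] {T : Set α} (i : α → α) (h1 : ∀ x ∈ T, i x ∈ T)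
    (h2 : ∀ x ∈ T, i (i x) = x) (h3 : ∀ x ∈ T, i x ≠ x) : Even T.ncard := by
  classical
  have : ∑ _x ∈ T.toFinset, (1 : ZMod 2) = 0 :=
    sum_involution (fun x _ => i x) (fun _ _ => by decide)
      (fun x hx _ => h3 x (by simpa using hx)) (fun x hx => by simpa using h1 x (by simpa using hx))
      (fun x hx => h2 x (by simpa using hx))
  rw [sum_const, nsmul_eq_mul, mul_one, ZMod.natCast_eq_zero_iff_even] at this
  rwa [Set.ncard_eq_toFinset_card']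

/-- a surface poset cut along its double curves; `H` = half cells -/
structure Cut (P G : Type) [Fintype P] [AddGroup G] where
  le : P → P → Prop
  H : Set P
  bd : Set P
  lo : Set P
  act : K4 → P → P
  lab : P → ZMod 2
  g : P → P → G
  refl : ∀ x, le x x
  trans : ∀ x y z, le x y → le y z → le x z
  up : ∀ x ∈ H, ∀ y, le x y → y ∈ H
  act_zero : ∀ x, act 0 x = x
  act_add : ∀ u v, ∀ x ∈ H, act (u + v) x = act u (act v x)
  actH : ∀ u, ∀ x ∈ H, act u x ∈ H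
  act_mono : ∀ u, ∀ x ∈ H, ∀ y, le x y → le (act u x) (act u y)
  sep : ∀ u, u ≠ 0 → ∀ y ∈ H, ∀ x, le x y → ¬ le x (act u y)
  act_bd : ∀ u, ∀ x ∈ H, x ∈ bd → act u x ∈ bd
  lab_le : ∀ x ∈ H, ∀ y, le x y → lab x = lab y
  lab_act : ∀ u, ∀ x ∈ H, lab (act u x) = lab x + u.1
  two : Two le H lo bd
  stokes : ∀ U : Set P, (∀ x y, le x y → (x ∈ U ↔ y ∈ U)) → U ∩ bd = ∅ →
    ∀ c, Coc le U c → per le (U ∩ H) c = 0
  parity : ∀ U ⊆ bd, (∀ x ∈ bd, ∀ y ∈ bd, le x y → (x ∈ U ↔ y ∈ U)) → Even (U ∩ H).ncard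
  g_act : ∀ u, ∀ y ∈ H, ∀ x, g x (act u y) = g x y
  g_self : ∀ x ∈ bd, g x x = 0

namespace Cut

variable {P G : Type} [Fintype P] [AddGroup G] (C : Cut P G)

/-- the singular surface of the state `s` -/
def ls (s : P → K4) (x y : P) : Prop := C.le x y ∨ (y ∈ C.H ∧ C.le x (C.act (s y) y))

/-- a state -/
structure St (s : P → K4) : Prop where
  ne : ∀ x ∈ C.H, s x ≠ 0
  loc : ∀ x ∈ C.H, ∀ y, C.le x y → s x = s y
  inv : ∀ u, ∀ x ∈ C.H, s (C.act u x) = s x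

/-- an essential singular disc -/
structure Good (s : P → K4) (D : Set P) : Prop where
  st : C.St s
  clo : ∀ x y, C.ls s x y → (x ∈ D ↔ y ∈ D)
  conn : Conn (C.ls s) D
  h0 : H0 (C.ls s) D
  connB : Conn (C.ls s) (D ∩ C.bd)
  ess : ¬ Cob (C.ls s) (D ∩ C.bd) C.g

variable {C}

theorem act_act (u : K4) {x : P} (hx : x ∈ C.H) : C.act u (C.act u x) = x := by
  rw [← C.act_add u u x hx, K4.add_self, C.act_zero]

theorem act_ne {u : K4} (hu : u ≠ 0) {x : P} (hx : x ∈ C.H) : C.act u x ≠ x := fun e =>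
  C.sep u hu x hx x (C.refl x) (by rw [e]; exact C.refl x)

theorem act_comm (u v : K4) {x : P} (hx : x ∈ C.H) :
    C.act u (C.act v x) = C.act v (C.act u x) := by
  rw [← C.act_add u v x hx, ← C.act_add v u x hx, add_comm]

theorem le_act {u : K4} {x y : P} (hx : x ∈ C.H) (hy : y ∈ C.H) (h : C.le x (C.act u y)) :
    C.le (C.act u x) y := by
  have := C.act_mono u x hx _ h
  rwa [act_act u hy] at this

theorem ls_trans {s : P → K4} (hs : C.St s) {x y z : P} (a : C.ls s x y) (b : C.ls s y z) :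
    C.ls s x z := by
  rcases a with a | ⟨hy, a⟩ <;> rcases b with b | ⟨hz, b⟩
  · exact Or.inl (C.trans _ _ _ a b)
  · exact Or.inr ⟨hz, C.trans _ _ _ a b⟩
  · refine Or.inr ⟨C.up y hy z b, C.trans _ _ _ a ?_⟩
    rw [← hs.loc y hy z b]; exact C.act_mono _ y hy z b
  · refine Or.inl (C.trans _ _ _ a ?_)
    rw [hs.loc y hy _ b, hs.inv _ z hz]; exact le_act hy hz b

/-- a union `O` of orbits of arms on which the state is the flip -/
structure Orb (s : P → K4) (D O : Set P) : Prop where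
  good : C.Good s D
  OH : O ⊆ C.H
  OD : O ⊆ D
  Ole : ∀ x ∈ C.H, ∀ y, C.le x y → (x ∈ O ↔ y ∈ O)
  Oact : ∀ u, ∀ x ∈ O, C.act u x ∈ O
  sO : ∀ x ∈ O, s x = fl

variable (C) in
/-- the relation cut along `O` -/
def cut (s : P → K4) (O : Set P) (x y : P) : Prop :=
  C.le x y ∨ (y ∈ C.H ∧ y ∉ O ∧ C.le x (C.act (s y) y))

open Classical in
/-- the state changed to `γ` on `O` -/
noncomputable def upd (s : P → K4) (O : Set P) (γ : K4) (x : P) : K4 := if x ∈ O then γ else s x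

namespace Orb
variable {s : P → K4} {D O : Set P} (h : C.Orb s D O)
include h

theorem Oact' (u : K4) {x : P} (hx : x ∈ C.H) : C.act u x ∈ O ↔ x ∈ O :=
  ⟨fun e => by have := h.Oact u _ e; rwa [act_act u hx] at this, h.Oact u x⟩

theorem st_upd {γ : K4} (hγ : γ ≠ 0) : C.St (upd s O γ) := by
  classical
  refine ⟨fun x hx => ?_, fun x hx y e => ?_, fun u x hx => ?_⟩
  · unfold upd; split_ifs; exacts [hγ, h.good.st.ne x hx]
  · unfold upd; rw [h.good.st.loc x hx y e]; exact if_congr (h.Ole x hx y e) rfl rfl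
  · unfold upd; rw [h.good.st.inv u x hx]; exact if_congr (h.Oact' u hx) rfl rfl

theorem ls_upd {γ : K4} {x y : P} :
    C.ls (upd s O γ) x y ↔ C.cut s O x y ∨ (y ∈ O ∧ C.le x (C.act γ y)) := by
  unfold ls cut upd
  by_cases hy : y ∈ O
  · simp [hy, h.OH hy]
  · simp [hy]

theorem upd_fl : upd s O fl = s := by
  funext x; unfold upd; split_ifs with e; exacts [(h.sO x e).symm, rfl]

theorem ls_iff {x y : P} : C.ls s x y ↔ C.cut s O x y ∨ (y ∈ O ∧ C.le x (C.act fl y)) := by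
  rw [← h.ls_upd, h.upd_fl]

theorem cut_O {x y : P} (hx : x ∈ O) (e : C.cut s O x y) : C.le x y := by
  rcases e with e | ⟨a, b, e⟩
  · exact e
  · exact (b ((h.Oact' _ a).1 ((h.Ole x (h.OH hx) _ e).1 hx))).elim

omit h in
theorem cut_O' {x y : P} (hy : y ∈ O) (e : C.cut s O x y) : C.le x y :=
  e.resolve_right fun e => e.2.1 hy

theorem cut_trans {x y z : P} (a : C.cut s O x y) (b : C.cut s O y z) : C.cut s O x z := by
  rcases a with a | ⟨hy, hy', a⟩ <;> rcases b with b | ⟨hz, hz', b⟩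
  · exact Or.inl (C.trans _ _ _ a b)
  · exact Or.inr ⟨hz, hz', C.trans _ _ _ a b⟩
  · refine Or.inr ⟨C.up y hy z b, fun e => hy' ((h.Ole y hy z b).2 e), C.trans _ _ _ a ?_⟩
    rw [← h.good.st.loc y hy z b]; exact C.act_mono _ y hy z b
  · refine Or.inl (C.trans _ _ _ a ?_)
    rw [h.good.st.loc y hy _ b, h.good.st.inv _ z hz]; exact le_act hy hz b

theorem clo_cut {x y : P} (e : C.cut s O x y) : x ∈ D ↔ y ∈ D :=
  h.good.clo x y (h.ls_iff.2 (Or.inl e))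

/-- potentials on the cut surface -/
theorem pot {c : P → P → ZMod 2} (hc : Coc (C.cut s O) D c)
    (h0 : ∀ x ∈ O, ∀ y, C.le x y → c x y = 0) :
    ∃ l : P → ZMod 2, (∀ x ∈ D, ∀ y ∈ D, C.cut s O x y → l y = l x + c x y) ∧
      ∀ y ∈ O, l (C.act fl y) = l y := by
  classical
  let c' : P → P → ZMod 2 := fun x y => if y ∈ O ∧ ¬ C.le x y then c x (C.act fl y) else c x y
  have k1 : ∀ x y, C.cut s O x y → c' x y = c x y := fun x y e =>
    if_neg fun e' => e'.2 (cut_O' e'.1 e)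
  have k2 : ∀ x, ∀ y ∈ O, C.le x (C.act fl y) → c' x y = c x (C.act fl y) := fun x y hy e =>
    if_pos ⟨hy, fun e' => C.sep fl fl_ne y (h.OH hy) x e' e⟩
  have hc' : Coc (C.ls s) D c' := by
    intro x hx y hy z hz a b
    rcases h.ls_iff.1 a with a | ⟨hO, a⟩
    · rcases h.ls_iff.1 b with b | ⟨hO, b⟩
      · rw [k1 _ _ a, k1 _ _ b, k1 _ _ (h.cut_trans a b)]; exact hc x hx y hy z hz a b
      · have hO' := h.Oact fl z hO
        rw [k1 _ _ a, k2 _ _ hO b, k2 _ _ hO (cut_O' hO' (h.cut_trans a (Or.inl b)))]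
        exact hc x hx y hy _ (h.OD hO') a (Or.inl b)
    · have hO' := h.Oact fl y hO
      rw [k2 _ _ hO a]
      rcases h.ls_iff.1 b with b | ⟨hz', b⟩
      · have b := h.cut_O hO b
        have hz' := (h.Ole y (h.OH hO) z b).1 hO
        have b' := C.act_mono fl y (h.OH hO) z b
        rw [k1 _ _ (Or.inl b), k2 _ _ hz' (C.trans _ _ _ a b'), h0 y hO z b,
          hc x hx _ (h.OD hO') _ (h.OD (h.Oact fl z hz')) (Or.inl a) (Or.inl b'), h0 _ hO' _ b']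
      · have b' := le_act (h.OH hO) (h.OH hz') b
        rw [k2 _ _ hz' b, k1 _ _ (Or.inl (C.trans _ _ _ a b')), h0 y hO _ b,
          hc x hx _ (h.OD hO') z hz (Or.inl a) (Or.inl b'), h0 _ hO' _ b']
  obtain ⟨l, hl⟩ := h.good.h0 c' hc'
  refine ⟨l, fun x hx y hy e => ?_, fun y hy => ?_⟩
  · rw [hl x hx y hy (h.ls_iff.2 (Or.inl e)), k1 _ _ e]
  · have hO' := h.Oact fl y hy
    rw [hl _ (h.OD hO') y (h.OD hy) (h.ls_iff.2 (Or.inr ⟨hy, C.refl _⟩)), k2 _ _ hy (C.refl _),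
      h0 _ hO' _ (C.refl _), add_zero]

open Classical in
/-- jump function of a union of arms `X` -/
theorem jump {X : Set P} (hX : ∀ x ∈ O, ∀ y, C.le x y → (x ∈ X ↔ y ∈ X)) :
    ∃ κ : P → ZMod 2, (∀ x ∈ D, ∀ y ∈ D, C.cut s O x y → κ x = κ y) ∧
      ∀ y ∈ O, κ (C.act fl y) = κ y + (if y ∈ X then 1 else 0) +
        (if C.act fl y ∈ X then 1 else 0) := by
  let i : P → ZMod 2 := fun y => if y ∈ X then 1 else 0
  obtain ⟨l, h1, h2⟩ := h.pot (c := fun x y => i y - i x) (fun x _ y _ z _ _ _ => by ring)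
    (fun x hx y e => by simp only [i, hX x hx y e, sub_self])
  refine ⟨fun y => l y - i y, fun x hx y hy e => ?_, fun y hy => ?_⟩
  · simp only [h1 x hx y hy e]; ring
  · simp only [h2 y hy]
    change l y - i (C.act fl y) = l y - i y + i y + i (C.act fl y)
    generalize l y = a; generalize i y = b; generalize i (C.act fl y) = c
    revert a b c; decide

/-- normalisation: `H^1 = 0` after regluing -/
theorem norm {γ : K4} {D' : Set P}
    (hcl : ∀ x y, C.ls (upd s O γ) x y → (x ∈ D' ↔ y ∈ D')) {c : P → P → ZMod 2}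
    (hc : Coc (C.ls (upd s O γ)) D' c) (hO : Cob (C.ls (upd s O γ)) (O ∩ D') c)
    (hfix : ∀ l : P → ZMod 2, (∀ x ∈ O, ∀ y, C.le x y → l x = l y) →
      (∀ y ∈ O, l (C.act fl y) = l y) → ∃ n : P → ZMod 2,
        (∀ x ∈ D', ∀ y ∈ D', C.cut s O x y → n x = n y) ∧
        ∀ y ∈ O, y ∈ D' → l (C.act γ y) + n (C.act γ y) = l y + n y) (hD : D' ⊆ D) :
    Cob (C.ls (upd s O γ)) D' c := by
  classical
  obtain ⟨m, hm⟩ := hO
  let m' : P → ZMod 2 := fun x => if x ∈ O then m x else 0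
  let c0 : P → P → ZMod 2 := fun x y => if x ∈ D' then c x y - m' y + m' x else 0
  have hc0 : Coc (C.cut s O) D c0 := by
    intro x _ y _ z _ a b
    have a' := h.ls_upd (γ := γ).2 (Or.inl a)
    have b' := h.ls_upd (γ := γ).2 (Or.inl b)
    by_cases hx : x ∈ D'
    · have hy := (hcl x y a').1 hx
      simp only [c0, hx, hy, if_true, hc x hx y hy z ((hcl y z b').1 hy) a' b']; ring
    · have hy : y ∉ D' := fun e => hx ((hcl x y a').2 e)
      simp [c0, hx, hy]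
  have h00 : ∀ x ∈ O, ∀ y, C.le x y → c0 x y = 0 := by
    intro x hx y e
    have hy := (h.Ole x (h.OH hx) y e).1 hx
    by_cases hx' : x ∈ D'
    · have hy' := (hcl x y (Or.inl e)).1 hx'
      simp only [c0, m', hx, hy, hx', if_true, hm x ⟨hx, hx'⟩ y ⟨hy, hy'⟩ (Or.inl e)]; ring
    · simp [c0, hx']
  obtain ⟨l, h1, h2⟩ := h.pot hc0 h00
  obtain ⟨n, n1, n2⟩ := hfix l (fun x hx y e => by
    rw [h1 x (h.OD hx) y (h.OD ((h.Ole x (h.OH hx) y e).1 hx)) (Or.inl e), h00 x hx y e,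
      add_zero]) h2
  have key : ∀ x ∈ D', ∀ y ∈ D', C.cut s O x y →
      l y + n y + m' y = l x + n x + m' x + c x y := by
    intro x hx y hy e
    rw [h1 x (hD hx) y (hD hy) e, n1 x hx y hy e]
    simp only [c0, hx, if_true]; ring
  refine ⟨fun x => l x + n x + m' x, fun x hx y hy e => ?_⟩
  rcases h.ls_upd.1 e with e | ⟨hy', e⟩
  · exact key x hx y hy e
  · have hO' := h.Oact γ y hy'
    have b : C.ls (upd s O γ) (C.act γ y) y := h.ls_upd.2 (Or.inr ⟨hy', C.refl _⟩)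
    have hD' := (hcl _ _ b).2 hy
    have e1 := key x hx _ hD' (Or.inl e)
    have e2 := hc x hx _ hD' y hy (Or.inl e) b
    have e3 := hm _ ⟨hO', hD'⟩ y ⟨hy', hy⟩ b
    have e4 := n2 y hy' hy
    simp only [m', hO', hy', if_true] at e1 ⊢
    linear_combination e1 - e2 + e3 - e4

/-- a potential on half of the arms gives one on the glued arms -/
theorem glue {γ : K4} {D' Z : Set P}
    (hcl : ∀ x y, C.ls (upd s O γ) x y → (x ∈ D' ↔ y ∈ D')) {c : P → P → ZMod 2}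
    (hc : Coc (C.ls (upd s O γ)) D' c) (hZ : ∀ x ∈ O, ∀ y, C.le x y → (x ∈ Z ↔ y ∈ Z))
    (hx : ∀ y ∈ O, y ∈ D' → (y ∈ Z ↔ C.act γ y ∉ Z)) (hb : Cob C.le Z c) :
    Cob (C.ls (upd s O γ)) (O ∩ D') c := by
  classical
  obtain ⟨m, hm⟩ := hb
  have gl : ∀ y ∈ O, C.ls (upd s O γ) (C.act γ y) y := fun y hy =>
    h.ls_upd.2 (Or.inr ⟨hy, C.refl _⟩)
  refine ⟨fun y => if y ∈ Z then m y else m (C.act γ y) + c (C.act γ y) y, ?_⟩
  rintro x ⟨x1, x2⟩ y ⟨y1, y2⟩ e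
  have x3 := (hcl _ _ (gl x x1)).2 x2
  have y3 := (hcl _ _ (gl y y1)).2 y2
  have xa := h.Oact γ x x1
  rcases h.ls_upd.1 e with e' | ⟨_, e'⟩
  · have e' := h.cut_O x1 e'
    by_cases hz : x ∈ Z
    · have hz' := (hZ x x1 y e').1 hz
      simp only [hz, hz', if_true]; exact hm x hz y hz' e'
    · have hz' : y ∉ Z := fun q => hz ((hZ x x1 y e').2 q)
      have a : C.act γ x ∈ Z := by by_contra q; exact hz ((hx x x1 x2).2 q)
      have b := C.act_mono γ x (h.OH x1) y e'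
      have e1 := hm _ a _ ((hZ _ xa _ b).1 a) b
      have e2 := hc _ x3 x x2 y y2 (gl x x1) e
      have e3 := hc _ x3 _ y3 y y2 (Or.inl b) (gl y y1)
      simp only [hz, hz', if_false]
      linear_combination e1 + e2 - e3
  · by_cases hz : x ∈ Z
    · have a := (hZ x x1 _ e').1 hz
      have hz' : y ∉ Z := fun q => (hx y y1 y2).1 q a
      have e1 := hm x hz _ a e'
      have e2 := hc x x2 _ y3 y y2 (Or.inl e') (gl y y1)
      simp only [hz, hz', if_true, if_false]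
      linear_combination e1 - e2
    · have a : C.act γ x ∈ Z := by by_contra q; exact hz ((hx x x1 x2).2 q)
      have b := le_act (h.OH x1) (h.OH y1) e'
      have hz' := (hZ _ xa _ b).1 a
      have e1 := hm _ a y hz' b
      have e2 := hc _ x3 x x2 y y2 (gl x x1) e
      simp only [hz, hz', if_true, if_false]
      linear_combination e1 + e2

end Orb

end Cut

end Crest.Agent.X212.Dsc37
end

-- ▼ part X212/Dsc37/Abs2
section

/-!
# The abstract cut and paste: periods, boundary arcs, the two regluings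
-/

namespace Crest.Agent.X212.Dsc37

open Finset

theorem K4.four' : ∀ γ u : K4, γ ≠ 0 → γ ≠ fl → u = 0 ∨ u = fl ∨ u = γ ∨ u = γ + fl := by decide
theorem K4.four {γ : K4} (h0 : γ ≠ 0) (h1 : γ ≠ fl) (u : K4) :
    u = 0 ∨ u = fl ∨ u = γ ∨ u = γ + fl := K4.four' γ u h0 h1
theorem K4.a1 : ∀ γ u : K4, (u + γ = 0 ↔ u = γ) := by decide
theorem K4.a2 : ∀ γ u : K4, (γ + u = 0 ∨ γ + u = γ ↔ u = 0 ∨ u = γ) := by decide
theorem K4.a3 : ∀ γ : K4, γ ≠ 0 → γ ≠ fl → ¬ (γ + fl = 0 ∨ γ + fl = γ) ∧ ¬ (fl = 0 ∨ fl = γ) := by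
  decide
theorem K4.a4 : ∀ γ u : K4, γ ≠ 0 → u = 0 ∨ u = γ → (u = 0 ↔ ¬ γ + u = 0) := by decide
theorem K4.a5 : ∀ γ u : K4, γ ≠ 0 → γ ≠ fl →
    (u = 0 ∨ u = γ ↔ ¬ (γ + fl + u = 0 ∨ γ + fl + u = γ)) := by decide

theorem z2_self (a : ZMod 2) : a + a = 0 := by revert a; decide

namespace Cut

variable {P G : Type} [Fintype P] [AddGroup G] {C : Cut P G}

namespace Orb
variable {s : P → K4} {D O : Set P} (h : C.Orb s D O)
include h

theorem io {x : P} (hx : x ∈ C.H) (hO : x ∉ O) :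
    C.act (s x) x ∈ C.H ∧ C.act (s x) x ∉ O ∧
      C.act (s (C.act (s x) x)) (C.act (s x) x) = x ∧ C.act (s x) x ≠ x ∧
      C.cut s O (C.act (s x) x) x ∧ C.cut s O x (C.act (s x) x) := by
  have a := C.actH (s x) x hx
  have b : C.act (s x) x ∉ O := fun e => hO ((h.Oact' _ hx).1 e)
  have c : C.act (s (C.act (s x) x)) (C.act (s x) x) = x := by
    rw [h.good.st.inv _ x hx, act_act _ hx]
  exact ⟨a, b, c, act_ne (h.good.st.ne x hx) hx, Or.inr ⟨hx, hO, C.refl _⟩,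
    Or.inr ⟨a, b, by rw [c]; exact C.refl x⟩⟩

/-- Stokes on a closed part -/
theorem per_zero {U : Set P} {c : P → P → ZMod 2} (hc : Coc (C.cut s O) U c)
    (hU : ∀ x y, C.cut s O x y → (x ∈ U ↔ y ∈ U)) (hb : U ∩ C.bd = ∅) :
    per C.le (U ∩ O) c = 0 := by
  classical
  let ι : P → P := fun x => C.act (s x) x
  let n := Fintype.equivFin P
  let m : P → ZMod 2 := fun x => if (x ∈ C.H ∧ x ∉ O) ∧ n x < n (ι x) then c x (ι x) else 0
  let c' : P → P → ZMod 2 := fun x y => c x y + m x + m y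
  have hc' : Coc (C.cut s O) U c' := by
    intro x hx y hy z hz a b
    simp only [c', hc x hx y hy z hz a b]
    linear_combination (-1 : ZMod 2) * z2_self (m y)
  have k : ∀ x ∈ U, x ∈ C.H → x ∉ O → c' x (ι x) = 0 := by
    intro x hx hH hO
    obtain ⟨a, b, e, ne, c1, c2⟩ := h.io hH hO
    have hi : ι x ∈ U := (hU _ _ c1).2 hx
    have e0 := hc x hx _ hi x hx c2 c1
    rw [hc.self hx (Or.inl (C.refl x))] at e0
    have e' : ι (ι x) = x := e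
    rcases lt_trichotomy (n x) (n (ι x)) with l | l | l
    · have l' : ¬ n (ι x) < n (ι (ι x)) := by rw [e']; exact not_lt.2 l.le
      simp only [c', m, hH, hO, l, l', not_false_eq_true, and_self, if_true, and_false, if_false]
      linear_combination z2_self (c x (ι x))
    · exact (ne (n.injective l).symm).elim
    · have a' : ι x ∈ C.H := a
      have b' : ι x ∉ O := b
      simp only [c', m, not_lt.2 l.le, l, a', b', not_false_eq_true, and_self, if_true, and_false,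
        if_false, e']
      linear_combination -e0
  have st := C.stokes U (fun x y e => hU x y (Or.inl e)) hb c'
    (hc'.mono subset_rfl fun _ _ _ _ e => Or.inl e)
  rw [per, ← sum_filter_add_sum_filter_not _ (fun p : P × P => p.1 ∈ O)] at st
  have s2 : ∑ p ∈ (prs C.le (U ∩ C.H)).filter (fun p => ¬ p.1 ∈ O), c' p.1 p.2 = 0 := by
    have mem : ∀ p ∈ (prs C.le (U ∩ C.H)).filter (fun p => ¬ p.1 ∈ O),
        p.1 ∈ U ∧ p.1 ∈ C.H ∧ p.1 ∉ O ∧ p.2 ∈ U ∧ p.2 ∈ C.H ∧ p.2 ∉ O ∧ C.le p.1 p.2 ∧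
          p.1 ≠ p.2 ∧ C.le (ι p.1) (ι p.2) := by
      intro p hp
      obtain ⟨a, b⟩ := mem_filter.1 hp
      obtain ⟨a1, a2, a3, a4⟩ := mem_prs.1 a
      refine ⟨a1.1, a1.2, b, a2.1, a2.2, fun e => b ((h.Ole _ a1.2 _ a3).2 e), a3, a4, ?_⟩
      simp only [ι, ← h.good.st.loc _ a1.2 _ a3]; exact C.act_mono _ _ a1.2 _ a3
    refine sum_involution (fun p _ => (ι p.1, ι p.2)) (fun p hp => ?_) (fun p hp _ e => ?_)
      (fun p hp => ?_) fun p hp => ?_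
    · obtain ⟨x1, x2, x3, y1, y2, y3, e, -, e'⟩ := mem p hp
      obtain ⟨a, b, ee, -, c1, c2⟩ := h.io x2 x3
      obtain ⟨-, -, -, -, d1, d2⟩ := h.io y2 y3
      have xi : ι p.1 ∈ U := (hU _ _ c1).2 x1
      have yi : ι p.2 ∈ U := (hU _ _ d1).2 y1
      have e1 := hc' _ x1 _ xi _ yi c2 (Or.inl e')
      have e2 := hc' _ x1 _ y1 _ yi (Or.inl e) d2
      rw [k _ x1 x2 x3] at e1
      rw [k _ y1 y2 y3] at e2
      simp only
      linear_combination z2_self (c' p.1 p.2) - e1 + e2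
    · obtain ⟨-, x2, x3, -⟩ := mem p hp
      exact (h.io x2 x3).2.2.2.1 (congrArg Prod.fst e)
    · obtain ⟨x1, x2, x3, y1, y2, y3, -, ne, e'⟩ := mem p hp
      obtain ⟨a, b, ee, -, c1, -⟩ := h.io x2 x3
      obtain ⟨a', -, ee', -, d1, -⟩ := h.io y2 y3
      refine mem_filter.2 ⟨mem_prs.2 ⟨⟨(hU _ _ c1).2 x1, a⟩, ⟨(hU _ _ d1).2 y1, a'⟩, e',
        fun q => ne ?_⟩, b⟩
      have q : ι p.1 = ι p.2 := q
      have := congrArg ι q
      rwa [show ι (ι p.1) = p.1 from ee, show ι (ι p.2) = p.2 from ee'] at this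
    · obtain ⟨-, x2, x3, -, y2, y3, -⟩ := mem p hp
      exact Prod.ext (h.io x2 x3).2.2.1 (h.io y2 y3).2.2.1
  rw [s2, add_zero] at st
  rw [per, ← st]
  refine sum_congr ?_ fun p hp => ?_
  · ext p
    simp only [mem_prs, mem_filter, Set.mem_inter_iff]
    exact ⟨fun ⟨a, b, e⟩ => ⟨⟨⟨a.1, h.OH a.2⟩, ⟨b.1, h.OH b.2⟩, e⟩, a.2⟩,
      fun ⟨⟨a, b, e⟩, f⟩ => ⟨⟨a.1, f⟩, ⟨b.1, (h.Ole _ a.2 _ e.1).1 f⟩, e⟩⟩
  · obtain ⟨a, b⟩ := mem_filter.1 hp
    obtain ⟨a1, -, a3, -⟩ := mem_prs.1 a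
    have b' := (h.Ole _ a1.2 _ a3).1 b
    simp [c', m, b, b']

/-- the boundary arc of an outer part is connected -/
theorem bconn {U : Set P} (hUD : U ⊆ D) (hU : ∀ x y, C.cut s O x y → (x ∈ U ↔ y ∈ U))
    (h2 : (U ∩ O ∩ C.bd).ncard = 2) : Conn (C.cut s O) (U ∩ C.bd) := by
  obtain ⟨e, he⟩ : (U ∩ O ∩ C.bd).Nonempty := Set.nonempty_of_ncard_ne_zero (by omega)
  refine ⟨⟨e, he.1.1, he.2⟩, fun κ hκ => ?_⟩
  let N : Set P := {z | z ∈ U ∩ C.bd ∧ ¬ (κ e ↔ κ z)}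
  have Ncl : ∀ x ∈ C.bd, ∀ y ∈ C.bd, C.cut s O x y → (x ∈ N ↔ y ∈ N) := by
    intro x hx y hy a
    by_cases q : x ∈ U
    · have q' := (hU x y a).1 q
      simp only [N, Set.mem_ofPred_eq, Set.mem_inter_iff, q, q', hx, hy, true_and,
        hκ x ⟨q, hx⟩ y ⟨q', hy⟩ a]
    · have q' : y ∉ U := fun w => q ((hU x y a).2 w)
      simp only [N, Set.mem_ofPred_eq, Set.mem_inter_iff, q, q', false_and]
  have p1 := C.parity N (fun z hz => hz.1.2) fun x hx y hy a => Ncl x hx y hy (Or.inl a)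
  have p2 : Even ((N ∩ C.H) \ O).ncard := by
    refine even_of_invol (fun x => C.act (s x) x) (fun x hx => ?_)
      (fun x hx => (h.io hx.1.2 hx.2).2.2.1) fun x hx => (h.io hx.1.2 hx.2).2.2.2.1
    obtain ⟨a, b, -, -, c1, -⟩ := h.io hx.1.2 hx.2
    exact ⟨⟨(Ncl _ (C.act_bd _ x hx.1.2 hx.1.1.1.2) x hx.1.1.1.2 c1).2 hx.1.1, a⟩, b⟩
  have p3 := Set.ncard_inter_add_ncard_sdiff_eq_ncard (N ∩ C.H) O
  have p4 : (N ∩ C.H ∩ O).ncard < 2 := by
    rw [← h2]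
    exact Set.ncard_lt_ncard ⟨fun z hz => ⟨⟨hz.1.1.1.1, hz.2⟩, hz.1.1.1.2⟩,
      fun q => (q he).1.1.2 Iff.rfl⟩
  have p5 : (N ∩ C.H ∩ O).ncard = 0 := by
    rw [Nat.even_iff] at p1 p2; omega
  have NO : ∀ z ∈ N, z ∉ O := fun z hz q => by
    have : z ∈ N ∩ C.H ∩ O := ⟨⟨hz, h.OH q⟩, q⟩
    rw [(Set.ncard_eq_zero).1 p5] at this; exact this
  have key : ∀ z ∈ U ∩ C.bd, (κ e ↔ κ z) := by
    intro z hz
    by_contra q
    have := h.good.connB.2 (· ∈ N) (fun x hx y hy a => by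
      rcases h.ls_iff.1 a with a | ⟨hO, a⟩
      · exact Ncl x hx.2 y hy.2 a
      · exact ⟨fun w => (NO _ ((Ncl x hx.2 _ (C.act_bd _ y (h.OH hO) hy.2) (Or.inl a)).1 w)
          (h.Oact fl y hO)).elim, fun w => (NO y w hO).elim⟩)
      z ⟨hUD hz.1, hz.2⟩ e ⟨hUD he.1.1, he.2⟩
    exact (this.1 ⟨hz, q⟩).2 Iff.rfl
  exact fun x hx y hy => (key x hx).symm.trans (key y hy)

end Orb

/-- the two outer parts `D1`, `D3` of the disc cut along two paired curves -/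
structure Parts (s : P → K4) (D O D1 D3 : Set P) (γ : K4) : Prop where
  orb : C.Orb s D O
  g0 : γ ≠ 0
  g1 : γ ≠ fl
  s1 : D1 ⊆ D
  s3 : D3 ⊆ D
  cl1 : ∀ x y, C.cut s O x y → (x ∈ D1 ↔ y ∈ D1)
  cl3 : ∀ x y, C.cut s O x y → (x ∈ D3 ↔ y ∈ D3)
  dis : ∀ x ∈ D1, x ∉ D3
  m1 : ∀ y ∈ D1 ∩ O, ∀ u, (C.act u y ∈ D1 ↔ u = 0)
  m3 : ∀ y ∈ D1 ∩ O, ∀ u, (C.act u y ∈ D3 ↔ u = γ)
  cov : ∀ z ∈ O, ∃ y ∈ D1 ∩ O, ∃ u, z = C.act u y
  conn : Conn C.le (D1 ∩ O)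

namespace Parts
variable {s : P → K4} {D O D1 D3 : Set P} {γ : K4} (h : C.Parts s D O D1 D3 γ)
include h

theorem aa (u v : K4) {y : P} (hy : y ∈ D1 ∩ O) : C.act u (C.act v y) = C.act (u + v) y :=
  (C.act_add u v y (h.orb.OH hy.2)).symm

theorem to3 {y : P} (hy : y ∈ D1 ∩ O) : C.act γ y ∈ D3 ∩ O :=
  ⟨(h.m3 y hy γ).2 rfl, h.orb.Oact γ y hy.2⟩

theorem of3 {z : P} (hz : z ∈ D3 ∩ O) : ∃ y ∈ D1 ∩ O, z = C.act γ y := by
  obtain ⟨y, hy, u, rfl⟩ := h.cov z hz.2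
  exact ⟨y, hy, by rw [(h.m3 y hy u).1 hz.1]⟩

theorem symm : C.Parts s D O D3 D1 γ := by
  refine ⟨h.orb, h.g0, h.g1, h.s3, h.s1, h.cl3, h.cl1, fun x a b => h.dis x b a,
    fun z hz u => ?_, fun z hz u => ?_, fun z hz => ?_, ?_⟩
  · obtain ⟨y, hy, rfl⟩ := h.of3 hz
    rw [h.aa _ _ hy, h.m3 y hy]; simp
  · obtain ⟨y, hy, rfl⟩ := h.of3 hz
    rw [h.aa _ _ hy, h.m1 y hy]; exact K4.a1 γ u
  · obtain ⟨y, hy, u, rfl⟩ := h.cov z hz
    exact ⟨_, h.to3 hy, u + γ, by rw [h.aa _ _ hy, add_assoc, K4.add_self, add_zero]⟩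
  · obtain ⟨e, he⟩ := h.conn.1
    refine ⟨⟨_, h.to3 he⟩, fun κ hκ x hx z hz => ?_⟩
    obtain ⟨y, hy, rfl⟩ := h.of3 hx
    obtain ⟨y', hy', rfl⟩ := h.of3 hz
    exact h.conn.2 (fun a => κ (C.act γ a)) (fun a ha b hb e =>
      hκ _ (h.to3 ha) _ (h.to3 hb) (C.act_mono γ a (h.orb.OH ha.2) b e)) y hy y' hy'

theorem arm_const {β : Type*} (l : P → β) (hl : ∀ x ∈ O, ∀ y, C.le x y → l x = l y) (u : K4)
    {y y' : P} (hy : y ∈ D1 ∩ O) (hy' : y' ∈ D1 ∩ O) : l (C.act u y) = l (C.act u y') :=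
  h.conn.const (fun a => l (C.act u a)) (fun a ha b _ e =>
    hl _ (h.orb.Oact u a ha.2) _ (C.act_mono u a (h.orb.OH ha.2) b e)) hy hy'

theorem fl_inv {β : Type*} (l : P → β) {T : Set P} (hT : ∀ u, ∀ x ∈ O, x ∈ T → C.act u x ∈ T)
    (h1 : ∀ y ∈ D1 ∩ O, y ∈ T → l (C.act fl y) = l y ∧ l (C.act (γ + fl) y) = l (C.act γ y))
    {z : P} (hz : z ∈ O) (hzT : z ∈ T) : l (C.act fl z) = l z := by
  obtain ⟨y, hy, u, rfl⟩ := h.cov z hz
  have yT : y ∈ T := by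
    have := hT u _ hz hzT
    rwa [act_act u (h.orb.OH hy.2)] at this
  obtain ⟨a, b⟩ := h1 y hy yT
  rw [h.aa _ _ hy]
  rcases K4.four h.g0 h.g1 u with rfl | rfl | rfl | rfl
  · rw [add_zero, C.act_zero, a]
  · rw [K4.add_self, C.act_zero, a]
  · rw [add_comm, b]
  · rw [add_left_comm, K4.add_self, add_zero, b]

theorem clo1 (x y : P) (e : C.ls (upd s O γ) x y) : x ∈ D1 ∪ D3 ↔ y ∈ D1 ∪ D3 := by
  rcases h.orb.ls_upd.1 e with e | ⟨hy, e⟩
  · exact or_congr (h.cl1 x y e) (h.cl3 x y e)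
  · rw [Set.mem_union, h.cl1 x _ (Or.inl e), h.cl3 x _ (Or.inl e)]
    obtain ⟨z, hz, u, rfl⟩ := h.cov y hy
    rw [Set.mem_union, h.aa _ _ hz, h.m1 z hz, h.m3 z hz, h.m1 z hz, h.m3 z hz]
    exact K4.a2 γ u

theorem clo2 (x y : P) (e : C.ls (upd s O (γ + fl)) x y) : x ∈ D ↔ y ∈ D := by
  rcases h.orb.ls_upd.1 e with e | ⟨hy, e⟩
  · exact h.orb.clo_cut e
  · rw [h.orb.clo_cut (Or.inl e)]
    exact iff_of_true (h.orb.OD (h.orb.Oact _ y hy)) (h.orb.OD hy)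

theorem n1 {y : P} (hy : y ∈ D1 ∩ O) : C.act fl y ∉ D1 ∧ C.act fl y ∉ D3 ∧ C.act γ y ∉ D1 ∧
    C.act γ y ∈ D3 ∧ C.act (γ + fl) y ∉ D1 ∧ C.act (γ + fl) y ∉ D3 ∧ y ∉ D3 := by
  simp only [h.m1 y hy, h.m3 y hy]
  have a := h.g0
  have b := h.g1
  exact ⟨fl_ne, b.symm, a, trivial, fun e => (K4.a3 γ a b).1 (Or.inl e),
    fun e => (K4.a3 γ a b).1 (Or.inr e), h.dis y hy.1⟩

theorem conn1 : Conn (C.ls (upd s O γ)) (D1 ∪ D3) := by
  classical
  obtain ⟨e, he⟩ := h.conn.1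
  refine Conn.of_const ⟨e, Or.inl he.1⟩ fun l hl => ?_
  let l' : P → ZMod 2 := fun x => if x ∈ D1 ∪ D3 then l x else l e
  have k0 : ∀ x y, C.cut s O x y → l' x = l' y := by
    intro x y a
    have a' := h.orb.ls_upd (γ := γ).2 (Or.inl a)
    by_cases hx : x ∈ D1 ∪ D3
    · have hy := (h.clo1 x y a').1 hx
      simp only [l', hx, hy, if_true]; exact hl x hx y hy a'
    · have hy : y ∉ D1 ∪ D3 := fun q => hx ((h.clo1 x y a').2 q)
      simp only [l', hx, hy, if_false]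
  have k1 : ∀ y ∈ D1 ∩ O, l y = l e := fun y hy =>
    h.conn.const l (fun a ha b hb q => hl a (Or.inl ha.1) b (Or.inl hb.1) (Or.inl q)) hy he
  have k2 : ∀ z ∈ O, l' (C.act fl z) = l' z := fun z hz =>
    h.fl_inv l' (T := Set.univ) (fun _ _ _ _ => trivial) (fun y hy _ => by
      obtain ⟨a, b, c, d, e', f, -⟩ := h.n1 hy
      have := hl _ (Or.inr d) y (Or.inl hy.1) (h.orb.ls_upd.2 (Or.inr ⟨hy.2, C.refl _⟩))
      simp [l', a, b, d, e', f, hy.1, k1 y hy, this]) hz trivial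
  intro x hx y hy
  have := h.orb.good.conn.const l' (fun a _ b _ q => by
    rcases h.orb.ls_iff.1 q with q | ⟨hb, q⟩
    · exact k0 a b q
    · rw [k0 a _ (Or.inl q), k2 b hb]) (hx.elim (@h.s1 x) (@h.s3 x)) (hy.elim (@h.s1 y) (@h.s3 y))
  simpa only [l', hx, hy, if_true] using this

theorem conn2 : Conn (C.ls (upd s O (γ + fl))) D := by
  classical
  obtain ⟨e, he⟩ := h.conn.1
  refine Conn.of_const h.orb.good.conn.1 fun l hl => ?_
  let d := l e + l (C.act fl e)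
  let l' : P → ZMod 2 := fun x => l x + if x ∈ D1 ∪ D3 then d else 0
  have k0 : ∀ x ∈ D, ∀ y ∈ D, C.cut s O x y → l' x = l' y := by
    intro x hx y hy a
    simp only [l', hl x hx y hy (h.orb.ls_upd.2 (Or.inl a)), Set.mem_union, h.cl1 x y a,
      h.cl3 x y a]
  have ar : ∀ u, ∀ y ∈ D1 ∩ O, l (C.act u y) = l (C.act u e) := fun u y hy =>
    h.arm_const l (fun a ha b q => hl a (h.orb.OD ha) b
      (h.orb.OD ((h.orb.Ole a (h.orb.OH ha) b q).1 ha)) (Or.inl q)) u hy he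
  have gl : ∀ z ∈ O, l (C.act (γ + fl) z) = l z := fun z hz =>
    hl _ (h.orb.OD (h.orb.Oact _ z hz)) z (h.orb.OD hz) (h.orb.ls_upd.2 (Or.inr ⟨hz, C.refl _⟩))
  have g2 : l (C.act γ e) = l (C.act fl e) := by
    rw [← gl _ (h.orb.Oact fl e he.2), h.aa _ _ he, add_assoc, K4.add_self, add_zero]
  have k2 : ∀ z ∈ O, l' (C.act fl z) = l' z := fun z hz =>
    h.fl_inv l' (T := Set.univ) (fun _ _ _ _ => trivial) (fun y hy _ => by
      obtain ⟨a, b, c, d', e', f, -⟩ := h.n1 hy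
      have a0 := ar 0 y hy
      rw [C.act_zero, C.act_zero] at a0
      simp only [l', Set.mem_union, a, b, d', e', f, hy.1, or_self, true_or, or_true, if_true,
        if_false, ar _ y hy, a0, gl e he.2, g2, d]
      exact ⟨by linear_combination -z2_self (l e), by linear_combination -z2_self (l (C.act fl e))⟩)
      hz trivial
  have k3 : ∀ x ∈ D, ∀ y ∈ D, l' x = l' y := fun x hx y hy =>
    h.orb.good.conn.const l' (fun a ha b hb q => by
      rcases h.orb.ls_iff.1 q with q | ⟨hb', q⟩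
      · exact k0 a ha b hb q
      · rw [k0 a ha _ (h.orb.OD (h.orb.Oact _ b hb')) (Or.inl q), k2 b hb']) hx hy
  have d0 : d = 0 := by
    have := k3 e (h.orb.OD he.2) _ (h.orb.OD (h.orb.Oact (γ + fl) e he.2))
    obtain ⟨-, -, -, -, e', f, -⟩ := h.n1 he
    simpa [l', e', f, he.1, gl e he.2] using this
  intro x hx y hy
  simpa [l', d0] using k3 x hx y hy

theorem h0_1 (hb : ∀ c : P → P → ZMod 2, Coc (C.ls (upd s O γ)) (D1 ∪ D3) c →
    Cob C.le (D1 ∩ O) c) : H0 (C.ls (upd s O γ)) (D1 ∪ D3) := by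
  classical
  obtain ⟨e, he⟩ := h.conn.1
  intro c hc
  refine h.orb.norm h.clo1 hc (h.orb.glue h.clo1 hc (fun x hx y q => ?_) (fun z hz q => ?_)
    (hb c hc)) (fun l l1 l2 => ?_) (Set.union_subset h.s1 h.s3)
  · exact and_congr (h.cl1 x y (Or.inl q)) (h.orb.Ole x (h.orb.OH hx) y q)
  · obtain ⟨y, hy, u, rfl⟩ := h.cov z hz
    rw [Set.mem_union, h.m1 y hy, h.m3 y hy] at q
    simp only [h.aa _ _ hy, Set.mem_inter_iff, h.orb.Oact _ y hy.2, and_true, h.m1 y hy]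
    exact K4.a4 γ u h.g0 q
  · refine ⟨fun x => if x ∈ D1 then l e + l (C.act γ e) else 0,
      fun x _ y _ q => by simp only [h.cl1 x y q], fun z hz q => ?_⟩
    obtain ⟨y, hy, u, rfl⟩ := h.cov z hz
    rw [Set.mem_union, h.m1 y hy, h.m3 y hy] at q
    have a0 := h.arm_const l l1 0 hy he
    rw [C.act_zero, C.act_zero] at a0
    have a1 := h.arm_const l l1 γ hy he
    rcases q with rfl | rfl
    · simp only [C.act_zero, hy.1, (h.n1 hy).2.2.1, if_true, if_false, a0, a1]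
      linear_combination -z2_self (l e)
    · simp only [act_act _ (h.orb.OH hy.2), hy.1, (h.n1 hy).2.2.1, if_true, if_false, a0, a1]
      linear_combination z2_self (l e)

theorem h0_2 (hb : ∀ c : P → P → ZMod 2, Coc (C.ls (upd s O (γ + fl))) D c →
    Cob C.le (D1 ∩ O) c ∧ Cob C.le (D3 ∩ O) c) : H0 (C.ls (upd s O (γ + fl))) D := by
  classical
  obtain ⟨e, he⟩ := h.conn.1
  intro c hc
  refine h.orb.norm h.clo2 hc (h.orb.glue (Z := (D1 ∪ D3) ∩ O) h.clo2 hc (fun x hx y q => ?_)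
    (fun z hz _ => ?_) ?_) (fun l l1 l2 => ?_) subset_rfl
  · exact and_congr (or_congr (h.cl1 x y (Or.inl q)) (h.cl3 x y (Or.inl q)))
      (h.orb.Ole x (h.orb.OH hx) y q)
  · obtain ⟨y, hy, u, rfl⟩ := h.cov z hz
    simp only [h.aa _ _ hy, Set.mem_inter_iff, Set.mem_union, h.orb.Oact _ y hy.2, and_true,
      h.m1 y hy, h.m3 y hy]
    exact K4.a5 γ u h.g0 h.g1
  · obtain ⟨⟨m1, a1⟩, m3, a3⟩ := hb c hc
    refine ⟨fun x => if x ∈ D1 then m1 x else m3 x, fun x hx y hy q => ?_⟩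
    by_cases w : x ∈ D1
    · have w' := (h.cl1 x y (Or.inl q)).1 w
      simp only [w, w', if_true]; exact a1 x ⟨w, hx.2⟩ y ⟨w', hy.2⟩ q
    · have w' : y ∉ D1 := fun t => w ((h.cl1 x y (Or.inl q)).2 t)
      simp only [w, w', if_false]
      exact a3 x ⟨hx.1.resolve_left w, hx.2⟩ y ⟨hy.1.resolve_left w', hy.2⟩ q
  · refine ⟨fun x => if x ∈ D1 ∪ D3 then l e + l (C.act γ e) else 0,
      fun x _ y _ q => by simp only [Set.mem_union, h.cl1 x y q, h.cl3 x y q], fun z hz _ => ?_⟩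
    obtain ⟨y, hy, u, rfl⟩ := h.cov z hz
    have b1 := l2 e he.2
    have b2 := l2 _ (h.orb.Oact γ e he.2)
    rw [h.aa _ _ he, add_comm] at b2
    have g0 := h.g0
    have g1 := h.g1
    simp only [h.aa _ _ hy, Set.mem_union, h.m1 y hy, h.m3 y hy, h.arm_const l l1 _ hy he]
    rcases K4.four g0 g1 u with rfl | rfl | rfl | rfl
    · rw [add_zero, if_neg (K4.a3 _ g0 g1).1, if_pos (Or.inl rfl), b2, C.act_zero]
      linear_combination -z2_self (l e)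
    · rw [add_assoc, K4.add_self, add_zero, if_pos (Or.inr rfl), if_neg (K4.a3 _ g0 g1).2, b1]
      linear_combination z2_self (l (C.act γ e))
    · rw [add_right_comm, K4.add_self, zero_add, if_neg (K4.a3 _ g0 g1).2, if_pos (Or.inr rfl),
        b1]
      linear_combination -z2_self (l (C.act u e))
    · rw [K4.add_self, if_pos (Or.inl rfl), if_neg (K4.a3 _ g0 g1).1, b2, C.act_zero]
      linear_combination z2_self (l e)

end Parts

end Cut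

end Crest.Agent.X212.Dsc37
end

-- ▼ part X212/Dsc37/Abs3
section

/-!
# The abstract cut and paste: boundary, the induction
-/

namespace Crest.Agent.X212.Dsc37

theorem K4.a6 : ∀ γ : K4, γ ≠ 0 → γ ≠ fl → γ + fl ≠ 0 ∧ γ + fl ≠ fl := by decide

namespace Cut

variable {P G : Type} [Fintype P] [AddGroup G] {C : Cut P G}

theorem two_sub {X : Set P} (hX : X ⊆ C.H) (hc : ∀ x ∈ C.H, ∀ y, C.le x y → (x ∈ X ↔ y ∈ X)) :
    Two C.le X C.lo C.bd := by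
  have a : ∀ x ∈ X, abv C.le X x = abv C.le C.H x := fun x hx => Set.ext fun y =>
    ⟨fun e => ⟨hX e.1, e.2⟩, fun e => ⟨(hc x (hX hx) y e.2.1).1 hx, e.2⟩⟩
  have b : ∀ x ∈ X, blw C.le X x = blw C.le C.H x := fun x hx => Set.ext fun y =>
    ⟨fun e => ⟨hX e.1, e.2⟩, fun e => ⟨(hc y e.1 x e.2.1).2 hx, e.2⟩⟩
  exact ⟨fun x hx y hy => C.two.lv x (hX hx) y (hX hy),
    fun y hy e => by rw [b y hy]; exact C.two.hi y (hX hy) e,
    fun y hy e e' => by rw [a y hy]; exact C.two.loI y (hX hy) e e',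
    fun y hy e => by rw [a y hy]; exact C.two.loB y (hX hy) e⟩

/-- the result of one cut and paste -/
def Next (s : P → K4) (D O : Set P) : Prop :=
  ∃ γ D', γ ≠ fl ∧ D' ⊆ D ∧ C.Good (upd s O γ) D'

theorem Orb.rel_bd {s : P → K4} {D O : Set P} (h : C.Orb s D O) (hb : O ∩ C.bd = ∅) (γ : K4)
    {x y : P} (hy : y ∈ C.bd) : C.ls (upd s O γ) x y ↔ C.ls s x y := by
  have : y ∉ O := fun e => (hb ▸ (⟨e, hy⟩ : y ∈ O ∩ C.bd) : y ∈ (∅ : Set P))
  rw [h.ls_upd, h.ls_iff]; simp [this]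

theorem Orb.good_circ {s : P → K4} {D O D' : Set P} (h : C.Orb s D O) (hb : O ∩ C.bd = ∅) {γ : K4}
    (hγ : γ ≠ 0) (e : D' ∩ C.bd = D ∩ C.bd)
    (clo : ∀ x y, C.ls (upd s O γ) x y → (x ∈ D' ↔ y ∈ D')) (conn : Conn (C.ls (upd s O γ)) D')
    (h0 : H0 (C.ls (upd s O γ)) D') : C.Good (upd s O γ) D' := by
  refine ⟨h.st_upd hγ, clo, conn, h0, ?_, ?_⟩ <;> rw [e]
  · exact h.good.connB.mono_rel fun x _ y hy q => (h.rel_bd hb γ hy.2).2 q
  · exact fun q => h.good.ess (q.mono subset_rfl fun x _ y hy q => (h.rel_bd hb γ hy.2).2 q)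

/-- a closed part gives a potential on its arm -/
theorem Orb.cob_arm {s : P → K4} {D O U D' : Set P} (h : C.Orb s D O) {γ : K4}
    (hU : ∀ x y, C.cut s O x y → (x ∈ U ↔ y ∈ U)) (hc : Conn C.le (U ∩ O)) (hUD : U ⊆ D')
    (hb : (U ∩ O ∩ C.bd).Nonempty ∨ U ∩ C.bd = ∅) {c : P → P → ZMod 2}
    (hcc : Coc (C.ls (upd s O γ)) D' c) : Cob C.le (U ∩ O) c := by
  have t : Two C.le (U ∩ O) C.lo C.bd := two_sub (fun x hx => h.OH hx.2)
    fun x hx y q => and_congr (hU x y (Or.inl q)) (h.Ole x hx y q)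
  refine (t.arm hc).2 c (fun x hx _ => hcc.self (hUD hx.1) (Or.inl (C.refl x))) (hb.imp id fun q => ?_)
  exact h.per_zero (hcc.mono hUD fun _ _ _ _ q => h.ls_upd.2 (Or.inl q)) hU q

namespace Parts
variable {s : P → K4} {D O D1 D3 : Set P} {γ : K4} (h : C.Parts s D O D1 D3 γ)
include h

theorem bc {e : P} (he : e ∈ D1 ∩ O ∩ C.bd) : Conn (C.cut s O) (D1 ∩ C.bd) := by
  have t : Two C.le (D1 ∩ O) C.lo C.bd := two_sub (fun x hx => h.orb.OH hx.2)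
    fun x hx y q => and_congr (h.cl1 x y (Or.inl q)) (h.orb.Ole x hx y q)
  refine h.orb.bconn h.s1 h.cl1 ((t.arm h.conn).1.resolve_left fun q => ?_).1
  exact (q ▸ he : e ∈ (∅ : Set P))

theorem to3b {e : P} (he : e ∈ D1 ∩ O ∩ C.bd) : C.act γ e ∈ D3 ∩ O ∩ C.bd :=
  ⟨h.to3 he.1, C.act_bd γ e (h.orb.OH he.1.2) he.2⟩

theorem actb : ∀ u, ∀ x ∈ O, x ∈ C.bd → C.act u x ∈ C.bd :=
  fun u x a b => C.act_bd u x (h.orb.OH a) b

theorem connB1 {e : P} (he : e ∈ D1 ∩ O ∩ C.bd) :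
    Conn (C.ls (upd s O γ)) ((D1 ∪ D3) ∩ C.bd) := by
  have he3 := h.to3b he
  refine Conn.of_const ⟨e, Or.inl he.1.1, he.2⟩ fun l hl => ?_
  have a : ∀ x ∈ D1 ∩ C.bd, l x = l e := fun x hx => (h.bc he).const l (fun a ha b hb q =>
    hl a ⟨Or.inl ha.1, ha.2⟩ b ⟨Or.inl hb.1, hb.2⟩ (h.orb.ls_upd.2 (Or.inl q))) hx ⟨he.1.1, he.2⟩
  have b : ∀ x ∈ D3 ∩ C.bd, l x = l (C.act γ e) := fun x hx => (h.symm.bc he3).const l
    (fun a ha b hb q => hl a ⟨Or.inr ha.1, ha.2⟩ b ⟨Or.inr hb.1, hb.2⟩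
      (h.orb.ls_upd.2 (Or.inl q))) hx ⟨he3.1.1, he3.2⟩
  have c := hl _ ⟨Or.inr he3.1.1, he3.2⟩ e ⟨Or.inl he.1.1, he.2⟩
    (h.orb.ls_upd.2 (Or.inr ⟨he.1.2, C.refl _⟩))
  have d : ∀ x ∈ (D1 ∪ D3) ∩ C.bd, l x = l e := fun x hx =>
    hx.1.elim (fun q => a x ⟨q, hx.2⟩) fun q => (b x ⟨q, hx.2⟩).trans c
  exact fun x hx y hy => (d x hx).trans (d y hy).symm

theorem connB2 {e : P} (he : e ∈ D1 ∩ O ∩ C.bd) :
    Conn (C.ls (upd s O (γ + fl))) (D ∩ C.bd) := by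
  classical
  have he3 := h.to3b he
  refine Conn.of_const h.orb.good.connB.1 fun l hl => ?_
  have a : ∀ x ∈ D1 ∩ C.bd, l x = l e := fun x hx => (h.bc he).const l (fun a ha b hb q =>
    hl a ⟨h.s1 ha.1, ha.2⟩ b ⟨h.s1 hb.1, hb.2⟩ (h.orb.ls_upd.2 (Or.inl q))) hx ⟨he.1.1, he.2⟩
  have b : ∀ x ∈ D3 ∩ C.bd, l x = l (C.act γ e) := fun x hx => (h.symm.bc he3).const l
    (fun a ha b hb q => hl a ⟨h.s3 ha.1, ha.2⟩ b ⟨h.s3 hb.1, hb.2⟩
      (h.orb.ls_upd.2 (Or.inl q))) hx ⟨he3.1.1, he3.2⟩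
  have gl : ∀ z ∈ O, z ∈ C.bd → l (C.act (γ + fl) z) = l z := fun z hz hb =>
    hl _ ⟨h.orb.OD (h.orb.Oact _ z hz), h.actb _ z hz hb⟩ z ⟨h.orb.OD hz, hb⟩
      (h.orb.ls_upd.2 (Or.inr ⟨hz, C.refl _⟩))
  let l' : P → ZMod 2 := fun x => if x ∈ D1 then l (C.act γ e) else if x ∈ D3 then l e else l x
  have k0 : ∀ x ∈ D ∩ C.bd, ∀ y ∈ D ∩ C.bd, C.cut s O x y → l' x = l' y := by
    intro x hx y hy q
    simp only [l', hl x hx y hy (h.orb.ls_upd.2 (Or.inl q)), h.cl1 x y q, h.cl3 x y q]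
  have k2 : ∀ z ∈ O, z ∈ C.bd → l' (C.act fl z) = l' z := fun z hz hb =>
    h.fl_inv l' h.actb (fun y hy yb => by
      obtain ⟨a1, a2, a3, a4, a5, a6, -⟩ := h.n1 hy
      have e1 := gl _ (h.orb.Oact fl y hy.2) (h.actb _ y hy.2 yb)
      rw [h.aa _ _ hy, add_assoc, K4.add_self, add_zero, b _ ⟨a4, h.actb _ y hy.2 yb⟩] at e1
      simp only [l', a1, a2, a3, a4, a5, a6, hy.1, if_true, if_false, e1, gl y hy.2 yb,
        a y ⟨hy.1, yb⟩, and_self]) hz hb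
  have k3 : ∀ x ∈ D ∩ C.bd, ∀ y ∈ D ∩ C.bd, l' x = l' y := fun x hx y hy =>
    h.orb.good.connB.const l' (fun a ha b hb q => by
      rcases h.orb.ls_iff.1 q with q | ⟨hb', q⟩
      · exact k0 a ha b hb q
      · rw [k0 a ha _ ⟨h.orb.OD (h.orb.Oact _ b hb'), h.actb _ b hb' hb.2⟩ (Or.inl q),
          k2 b hb' hb.2]) hx hy
  have d0 : l (C.act γ e) = l e := by
    have := k3 e ⟨h.s1 he.1.1, he.2⟩ _ ⟨h.s3 he3.1.1, he3.2⟩
    simpa [l', he.1.1, he3.1.1, (h.n1 he.1).2.2.1] using this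
  have k4 : ∀ x ∈ C.bd, l' x = l x := by
    intro x hx
    simp only [l']
    split_ifs with q q'
    · rw [d0, a x ⟨q, hx⟩]
    · rw [b x ⟨q', hx⟩, d0]
    · rfl
  intro x hx y hy
  rw [← k4 x hx.2, ← k4 y hy.2, k3 x hx y hy]

omit h in
theorem pot_act (h : C.Orb s D O) {u : K4} {D' : Set P} {l : P → G}
    (hl : ∀ x ∈ D' ∩ C.bd, ∀ y ∈ D' ∩ C.bd, C.ls (upd s O u) x y → l y = l x + C.g x y)
    {z : P} (hz : z ∈ O) (hb : z ∈ C.bd) (h1 : z ∈ D') (h2 : C.act u z ∈ D') :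
    l (C.act u z) = l z := by
  have b := C.act_bd u z (h.OH hz) hb
  rw [hl _ ⟨h2, b⟩ z ⟨h1, hb⟩ (h.ls_upd.2 (Or.inr ⟨hz, C.refl _⟩)), ← C.g_act u z (h.OH hz),
    C.g_self _ b, add_zero]

theorem ess_or {e : P} (he : e ∈ D1 ∩ O ∩ C.bd)
    (c1 : Cob (C.ls (upd s O γ)) ((D1 ∪ D3) ∩ C.bd) C.g)
    (c2 : Cob (C.ls (upd s O (γ + fl))) (D ∩ C.bd) C.g) : False := by
  classical
  have he3 := h.to3b he
  obtain ⟨l1, h1⟩ := c1
  obtain ⟨l0, h0⟩ := c2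
  let l2 : P → G := fun x => (l1 e - l0 e) + l0 x
  have h2 : ∀ x ∈ D ∩ C.bd, ∀ y ∈ D ∩ C.bd, C.ls (upd s O (γ + fl)) x y →
      l2 y = l2 x + C.g x y := fun x hx y hy q => by simp only [l2, h0 x hx y hy q, add_assoc]
  have a : ∀ x ∈ D1 ∩ C.bd, l1 x = l2 x := fun x hx => (h.bc he).uniq
    (fun a ha b hb q => h0 a ⟨h.s1 ha.1, ha.2⟩ b ⟨h.s1 hb.1, hb.2⟩ (h.orb.ls_upd.2 (Or.inl q)))
    (fun a ha b hb q => h1 a ⟨Or.inl ha.1, ha.2⟩ b ⟨Or.inl hb.1, hb.2⟩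
      (h.orb.ls_upd.2 (Or.inl q))) ⟨he.1.1, he.2⟩ hx
  let k := l2 (C.act γ e) - l1 (C.act γ e)
  have b : ∀ x ∈ D3 ∩ C.bd, l2 x = k + l1 x := fun x hx => (h.symm.bc he3).uniq
    (fun a ha b hb q => h1 a ⟨Or.inr ha.1, ha.2⟩ b ⟨Or.inr hb.1, hb.2⟩
      (h.orb.ls_upd.2 (Or.inl q)))
    (fun a ha b hb q => h2 a ⟨h.s3 ha.1, ha.2⟩ b ⟨h.s3 hb.1, hb.2⟩ (h.orb.ls_upd.2 (Or.inl q)))
    ⟨he3.1.1, he3.2⟩ hx
  let l : P → G := fun x => if x ∈ D1 then l1 x else if x ∈ D3 then -k + l1 x else -k + l2 x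
  have k0 : ∀ x ∈ D ∩ C.bd, ∀ y ∈ D ∩ C.bd, C.cut s O x y → l y = l x + C.g x y := by
    intro x hx y hy q
    simp only [l, ← h.cl1 x y q, ← h.cl3 x y q]
    split_ifs with w w'
    · exact h1 x ⟨Or.inl w, hx.2⟩ y ⟨Or.inl ((h.cl1 x y q).1 w), hy.2⟩ (h.orb.ls_upd.2 (Or.inl q))
    · rw [h1 x ⟨Or.inr w', hx.2⟩ y ⟨Or.inr ((h.cl3 x y q).1 w'), hy.2⟩
        (h.orb.ls_upd.2 (Or.inl q)), add_assoc]
    · exact (congrArg (-k + ·) (h2 x hx y hy (h.orb.ls_upd.2 (Or.inl q)))).trans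
        (add_assoc _ _ _).symm
  have k2 : ∀ z ∈ O, z ∈ C.bd → l (C.act fl z) = l z := fun z hz hb =>
    h.fl_inv l h.actb (fun y hy yb => by
      obtain ⟨a1, a2, a3, a4, a5, a6, -⟩ := h.n1 hy
      have yf := h.orb.Oact fl y hy.2
      have e1 := pot_act h.orb h1 hy.2 yb (Or.inl hy.1) (Or.inr a4)
      have e2 := pot_act h.orb h2 hy.2 yb (h.orb.OD hy.2) (h.orb.OD (h.orb.Oact _ y hy.2))
      have e3 := pot_act h.orb h2 yf (h.actb _ y hy.2 yb) (h.orb.OD yf)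
        (h.orb.OD (h.orb.Oact _ _ yf))
      rw [h.aa _ _ hy, add_assoc, K4.add_self, add_zero, b _ ⟨a4, h.actb _ y hy.2 yb⟩, e1] at e3
      simp only [l, a1, a2, a3, a4, a5, a6, hy.1, if_true, if_false, ← e3, e1, e2,
        ← a y ⟨hy.1, yb⟩, neg_add_cancel_left, and_self]) hz hb
  refine h.orb.good.ess ⟨l, fun x hx y hy q => ?_⟩
  rcases h.orb.ls_iff.1 q with q | ⟨hy', q⟩
  · exact k0 x hx y hy q
  · rw [← k2 y hy' hy.2, k0 x hx _ ⟨h.orb.OD (h.orb.Oact _ y hy'), h.actb _ y hy' hy.2⟩ (Or.inl q),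
      C.g_act _ y (h.orb.OH hy')]

theorem next_arc {e : P} (he : e ∈ D1 ∩ O ∩ C.bd) : Next (C := C) s D O := by
  have he3 := h.to3b he
  by_cases c1 : Cob (C.ls (upd s O γ)) ((D1 ∪ D3) ∩ C.bd) C.g
  · exact ⟨γ + fl, D, (K4.a6 γ h.g0 h.g1).2, subset_rfl, h.orb.st_upd (K4.a6 γ h.g0 h.g1).1,
      h.clo2, h.conn2, h.h0_2 fun c hc => ⟨h.orb.cob_arm h.cl1 h.conn h.s1 (Or.inl ⟨e, he⟩) hc,
        h.orb.cob_arm h.cl3 h.symm.conn h.s3 (Or.inl ⟨_, he3⟩) hc⟩, h.connB2 he, h.ess_or he c1⟩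
  · exact ⟨γ, D1 ∪ D3, h.g1, Set.union_subset h.s1 h.s3, h.orb.st_upd h.g0, h.clo1, h.conn1,
      h.h0_1 fun c hc => h.orb.cob_arm h.cl1 h.conn Set.subset_union_left (Or.inl ⟨e, he⟩) hc,
      h.connB1 he, c1⟩

theorem side (hb : O ∩ C.bd = ∅) : D1 ∩ C.bd = ∅ ∨ D ∩ C.bd ⊆ D1 := by
  rcases (D1 ∩ C.bd).eq_empty_or_nonempty with q | ⟨x, hx⟩
  · exact Or.inl q
  · refine Or.inr fun y hy => (h.orb.good.connB.2 (· ∈ D1) (fun a _ b hb' q => ?_) x
      ⟨h.s1 hx.1, hx.2⟩ y hy).1 hx.1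
    rcases h.orb.ls_iff.1 q with q | ⟨w, -⟩
    · exact h.cl1 a b q
    · exact (hb ▸ (⟨w, hb'.2⟩ : b ∈ O ∩ C.bd) : b ∈ (∅ : Set P)).elim

theorem next_c3 (hb : O ∩ C.bd = ∅) (h3 : D ∩ C.bd ⊆ D3) : Next (C := C) s D O := by
  have e1 : D1 ∩ C.bd = ∅ := Set.eq_empty_of_forall_notMem fun x hx =>
    h.dis x hx.1 (h3 ⟨h.s1 hx.1, hx.2⟩)
  refine ⟨γ, D1 ∪ D3, h.g1, Set.union_subset h.s1 h.s3, h.orb.good_circ hb h.g0 ?_ h.clo1 h.conn1
    (h.h0_1 fun c hc => h.orb.cob_arm h.cl1 h.conn Set.subset_union_left (Or.inr e1) hc)⟩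
  exact Set.Subset.antisymm (fun x hx => ⟨hx.1.elim (@h.s1 x) (@h.s3 x), hx.2⟩)
    fun x hx => ⟨Or.inr (h3 hx), hx.2⟩

theorem next : Next (C := C) s D O := by
  rcases (O ∩ C.bd).eq_empty_or_nonempty with hb | ⟨z, hz⟩
  · rcases h.side hb with a | a
    · rcases h.symm.side hb with b | b
      · exact ⟨γ + fl, D, (K4.a6 γ h.g0 h.g1).2, subset_rfl,
          h.orb.good_circ hb (K4.a6 γ h.g0 h.g1).1 rfl h.clo2 h.conn2 (h.h0_2 fun c hc =>
            ⟨h.orb.cob_arm h.cl1 h.conn h.s1 (Or.inr a) hc,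
              h.orb.cob_arm h.cl3 h.symm.conn h.s3 (Or.inr b) hc⟩)⟩
      · exact h.next_c3 hb b
    · exact h.symm.next_c3 hb a
  · obtain ⟨y, hy, u, rfl⟩ := h.cov z hz.1
    have := h.actb u _ hz.1 hz.2
    rw [act_act u (h.orb.OH hy.2)] at this
    exact h.next_arc ⟨hy, this⟩

end Parts

end Cut

end Crest.Agent.X212.Dsc37
end

-- ▼ part X212/Dsc37/Abs4
section

/-!
# The abstract cut and paste: one step and the induction
-/

namespace Crest.Agent.X212.Dsc37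

theorem K4.b0 : ∀ u : K4, u = 0 ∨ u = fl ∨ u = dk ∨ u = fl + dk := by decide
theorem K4.b1 : ∀ u : K4, u.1 = 0 → u = 0 ∨ u = dk := by decide
theorem K4.b2a : ∀ a : K4 → ZMod 2,
    (∀ v, a (fl + v) = a v + (if v = 0 then 1 else 0) + (if fl + v = 0 then 1 else 0)) →
    ∃ u1 : K4, u1.2 = 0 ∧ ∀ v, a v ≠ a dk ↔ v = u1 := by decide
theorem K4.b2b : ∀ b : K4 → ZMod 2,
    (∀ v, b (fl + v) = b v + (if dk + v = 0 then 1 else 0) + (if dk + (fl + v) = 0 then 1 else 0)) →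
    ∃ u3 : K4, u3.2 = 1 ∧ ∀ v, b v ≠ b 0 ↔ v = u3 := by decide
theorem K4.b2c : ∀ u v : K4, u.2 = 0 → v.2 = 1 → u + v ≠ 0 ∧ u + v ≠ fl ∧ u ≠ v := by decide
theorem K4.b2 (a b : K4 → ZMod 2)
    (ha : ∀ v, a (fl + v) = a v + (if v = 0 then 1 else 0) + (if fl + v = 0 then 1 else 0))
    (hb : ∀ v, b (fl + v) = b v + (if dk + v = 0 then 1 else 0) +
      (if dk + (fl + v) = 0 then 1 else 0)) :
    ∃ u1 u3 : K4, u1 + u3 ≠ 0 ∧ u1 + u3 ≠ fl ∧ u1 ≠ u3 ∧ (∀ v, a v ≠ a dk ↔ v = u1) ∧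
      ∀ v, b v ≠ b 0 ↔ v = u3 := by
  obtain ⟨u, h1, h2⟩ := K4.b2a a ha
  obtain ⟨v, h3, h4⟩ := K4.b2b b hb
  obtain ⟨p, q, r⟩ := K4.b2c u v h1 h3
  exact ⟨u, v, p, q, r, h2, h4⟩
theorem K4.b3 : ∀ u v w : K4, (u + v = w ↔ u = v + w) := by decide
theorem K4.b4 : ∀ a : K4 → ZMod 2,
    (∀ v, a (fl + v) = a v + (if v.1 = 0 then 1 else 0) + (if (fl + v).1 = 0 then 1 else 0)) →
    (∀ v, a (dk + v) = a v) → ∀ v w, (a v = a w ↔ v.1 = w.1) := by decide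
theorem K4.b5 : ∀ v w : K4, v.1 = w.1 → v = w ∨ v = w + dk := by decide
theorem K4.b6 : ∀ v w : K4, (v.1 = w.1 ↔ ¬ (fl + dk + v).1 = w.1) := by decide

namespace Cut

variable {P G : Type} [Fintype P] [AddGroup G] {C : Cut P G} {s : P → K4} {D : Set P} {x0 : P}

/-- the arm through `x0` and its orbit -/
abbrev arm (C : Cut P G) (x0 : P) : Set P := cmp C.le C.H x0
def orb (C : Cut P G) (x0 : P) : Set P := {y | y ∈ C.H ∧ ∃ u, C.act u y ∈ C.arm x0}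

theorem arm_le {x y : P} (hx : x ∈ C.H) (e : C.le x y) : x ∈ C.arm x0 ↔ y ∈ C.arm x0 :=
  cmp_closed hx (C.up x hx y e) e

theorem arm_tr (h0 : x0 ∈ C.H) {β : Type*} (l : P → β) (u : K4)
    (hl : ∀ x ∈ C.orb x0, ∀ y, C.le x y → l x = l y) {y : P} (hy : y ∈ C.arm x0) :
    l (C.act u y) = l (C.act u x0) :=
  (cmp_conn h0).2.const (fun a => l (C.act u a)) (fun a ha b _ e => hl _
    ⟨C.actH u a ha.1, u, by rw [act_act u ha.1]; exact ha⟩ _ (C.act_mono u a ha.1 b e))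
    hy (cmp_conn h0).1

theorem mem_orb {y : P} (hy : y ∈ C.arm x0) (u : K4) : C.act u y ∈ C.orb x0 :=
  ⟨C.actH u y hy.1, u, by rw [act_act u hy.1]; exact hy⟩

theorem of_orb {z : P} (hz : z ∈ C.orb x0) : ∃ y ∈ C.arm x0, ∃ u, z = C.act u y := by
  obtain ⟨a, u, b⟩ := hz
  exact ⟨_, b, u, (act_act u a).symm⟩

theorem orb_of (h : C.Good s D) (h0 : x0 ∈ C.H) (hD : x0 ∈ D) (hs : s x0 = fl)
    (hd : C.act dk x0 ∈ D) : C.Orb s D (C.orb x0) := by
  have f : ∀ y ∈ C.H, s y = fl → y ∈ D → C.act fl y ∈ D := fun y a b c =>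
    (h.clo _ y (Or.inr ⟨a, by rw [b]; exact C.refl _⟩)).2 c
  refine ⟨h, fun y hy => hy.1, fun z hz => ?_, fun x hx y e => ?_, fun u z hz => ?_,
    fun z hz => ?_⟩
  · obtain ⟨y, hy, u, rfl⟩ := of_orb hz
    rw [arm_tr h0 (· ∈ D) u (fun x _ y e => propext (h.clo x y (Or.inl e))) hy]
    rcases K4.b0 u with rfl | rfl | rfl | rfl
    · rwa [C.act_zero]
    · exact f x0 h0 hs hD
    · exact hd
    · rw [C.act_add _ _ _ h0]
      exact f _ (C.actH _ _ h0) (by rw [h.st.inv _ _ h0, hs]) hd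
  · exact and_congr (iff_of_true hx (C.up x hx y e)) (exists_congr fun u =>
      arm_le (C.actH u x hx) (C.act_mono u x hx y e))
  · obtain ⟨y, hy, v, rfl⟩ := of_orb hz
    rw [← C.act_add _ _ _ hy.1]; exact mem_orb hy _
  · obtain ⟨y, hy, v, rfl⟩ := of_orb hz
    rw [arm_tr h0 s v (fun x hx y e => h.st.loc x hx.1 y e) hy, h.st.inv _ _ h0, hs]

theorem arm_lab (h0 : x0 ∈ C.H) {y : P} (hy : y ∈ C.arm x0) {u : K4}
    (hu : C.act u y ∈ C.arm x0) : u.1 = 0 := by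
  have a := (cmp_conn h0).2.const C.lab (fun a ha b _ e => C.lab_le a ha.1 b e) hu hy
  rw [C.lab_act u y hy.1] at a
  simpa using a

theorem arm_dk (h0 : x0 ∈ C.H) {y : P} (hy : y ∈ C.arm x0) :
    C.act dk y ∈ C.arm x0 ↔ C.act dk x0 ∈ C.arm x0 :=
  (arm_tr h0 (· ∈ C.arm x0) dk (fun _ hx _ e => propext (arm_le hx.1 e)) hy).to_iff

theorem conn_act (h0 : x0 ∈ C.H) (u : K4) {X : Set P} (h1 : ∀ y ∈ C.arm x0, C.act u y ∈ X)
    (h2 : ∀ z ∈ X, ∃ y ∈ C.arm x0, z = C.act u y) : Conn C.le X := by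
  refine ⟨⟨_, h1 x0 (cmp_conn h0).1⟩, fun κ hκ x hx z hz => ?_⟩
  obtain ⟨y, hy, rfl⟩ := h2 x hx
  obtain ⟨y', hy', rfl⟩ := h2 z hz
  exact (cmp_conn h0).2.2 (fun a => κ (C.act u a)) (fun a ha b hb e =>
    hκ _ (h1 a ha) _ (h1 b hb) (C.act_mono u a ha.1 b e)) y hy y' hy'

/-- two different curves -/
theorem step_two (h : C.Orb s D (C.orb x0)) (h0 : x0 ∈ C.H) (hd : C.act dk x0 ∉ C.arm x0) :
    Next (C := C) s D (C.orb x0) := by
  classical
  have m0 := (cmp_conn (r := C.le) h0).1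
  have ma : ∀ y ∈ C.arm x0, ∀ u, (C.act u y ∈ C.arm x0 ↔ u = 0) := fun y hy u =>
    ⟨fun e => (K4.b1 u (arm_lab h0 hy e)).resolve_right fun q =>
      hd ((arm_dk h0 hy).1 (q ▸ e)), fun e => by rwa [e, C.act_zero]⟩
  obtain ⟨κ, k1, k2⟩ := h.jump (X := C.arm x0) fun x hx y e => arm_le hx.1 e
  obtain ⟨μ, l1, l2⟩ := h.jump (X := {y | C.act dk y ∈ C.arm x0})
    fun x hx y e => arm_le (C.actH _ _ hx.1) (C.act_mono _ _ hx.1 _ e)
  have tr : ∀ κ : P → ZMod 2, (∀ x ∈ D, ∀ y ∈ D, C.cut s (C.orb x0) x y → κ x = κ y) →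
      ∀ u, ∀ y ∈ C.arm x0, κ (C.act u y) = κ (C.act u x0) := fun κ k u y hy =>
    arm_tr h0 κ u (fun a ha b e => k a (h.OD ha) b (h.OD ((h.Ole a ha.1 b e).1 ha)) (Or.inl e)) hy
  obtain ⟨u1, u3, g0, g1, ne, a1, a3⟩ := K4.b2 (fun v => κ (C.act v x0)) (fun v => μ (C.act v x0))
    (fun v => by
      have := k2 _ (mem_orb m0 v)
      simp only [← C.act_add _ _ _ h0, ma x0 m0] at this
      convert this)
    (fun v => by
      have := l2 _ (mem_orb m0 v)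
      simp only [Set.mem_ofPred_eq, ← C.act_add _ _ _ h0, ma x0 m0] at this
      convert this)
  let D1 := {x | x ∈ D ∧ κ x ≠ κ (C.act dk x0)}
  let D3 := {x | x ∈ D ∧ μ x ≠ μ (C.act 0 x0)}
  have d1 : ∀ y ∈ C.arm x0, ∀ v, (C.act v y ∈ D1 ↔ v = u1) := fun y hy v => by
    rw [← a1 v, ← tr κ k1 v y hy]; exact and_iff_right (h.OD (mem_orb hy v))
  have d3 : ∀ y ∈ C.arm x0, ∀ v, (C.act v y ∈ D3 ↔ v = u3) := fun y hy v => by
    rw [← a3 v, ← tr μ l1 v y hy]; exact and_iff_right (h.OD (mem_orb hy v))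
  have cl : ∀ (κ : P → ZMod 2) (t : ZMod 2),
      (∀ x ∈ D, ∀ y ∈ D, C.cut s (C.orb x0) x y → κ x = κ y) →
      ∀ x y, C.cut s (C.orb x0) x y → (x ∈ D ∧ κ x ≠ t ↔ y ∈ D ∧ κ y ≠ t) := by
    intro κ t k x y e
    rw [← h.clo_cut e]
    exact and_congr_right fun hx => by rw [k x hx y ((h.clo_cut e).1 hx) e]
  have c1 : ∀ x y, C.cut s (C.orb x0) x y → (x ∈ D1 ↔ y ∈ D1) := cl κ _ k1
  have c3 : ∀ x y, C.cut s (C.orb x0) x y → (x ∈ D3 ↔ y ∈ D3) := cl μ _ l1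
  have no : ∀ z ∈ C.orb x0, ¬ (z ∈ D1 ∧ z ∈ D3) := fun z hz q => by
    obtain ⟨y, hy, v, rfl⟩ := of_orb hz
    exact ne (((d1 y hy v).1 q.1).symm.trans ((d3 y hy v).1 q.2))
  have o1 : ∀ z ∈ D1 ∩ C.orb x0, ∃ y ∈ C.arm x0, z = C.act u1 y := fun z hz => by
    obtain ⟨y, hy, v, rfl⟩ := of_orb hz.2
    exact ⟨y, hy, by rw [(d1 y hy v).1 hz.1]⟩
  refine Parts.next (D1 := D1) (D3 := D3) (γ := u1 + u3) ⟨h, g0, g1, fun x hx => hx.1,
    fun x hx => hx.1, c1, c3, fun x a b => ?_, fun z hz u => ?_, fun z hz u => ?_, fun z hz => ?_,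
    conn_act h0 u1 (fun y hy => ⟨(d1 y hy u1).2 rfl, mem_orb hy _⟩) o1⟩
  · have x0O := mem_orb m0 0
    refine no _ x0O ((h.good.conn.2 (fun x => x ∈ D1 ∧ x ∈ D3) (fun x _ y _ e => ?_) x a.1 _
      (h.OD x0O)).1 ⟨a, b⟩)
    rcases h.ls_iff.1 e with e | ⟨hy, e⟩
    · rw [c1 x y e, c3 x y e]
    · rw [c1 x _ (Or.inl e), c3 x _ (Or.inl e)]
      exact iff_of_false (no _ (h.Oact _ y hy)) (no y hy)
  · obtain ⟨y, hy, rfl⟩ := o1 z hz
    rw [← C.act_add _ _ _ hy.1, d1 y hy]; simp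
  · obtain ⟨y, hy, rfl⟩ := o1 z hz
    rw [← C.act_add _ _ _ hy.1, d3 y hy]; exact K4.b3 _ _ _
  · obtain ⟨y, hy, v, rfl⟩ := of_orb hz
    exact ⟨_, ⟨(d1 y hy u1).2 rfl, mem_orb hy _⟩, v + u1, by
      rw [← C.act_add _ _ _ hy.1, add_assoc, K4.add_self, add_zero]⟩

/-- one invariant circle -/
theorem step_one (h : C.Orb s D (C.orb x0)) (h0 : x0 ∈ C.H) (hd : C.act dk x0 ∈ C.arm x0) :
    Next (C := C) s D (C.orb x0) := by
  classical
  have m0 := (cmp_conn (r := C.le) h0).1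
  have md : ∀ y ∈ C.arm x0, C.act dk y ∈ C.arm x0 := fun y hy => (arm_dk h0 hy).2 hd
  have ma : ∀ y ∈ C.arm x0, ∀ u, (C.act u y ∈ C.arm x0 ↔ u.1 = 0) := fun y hy u =>
    ⟨arm_lab h0 hy, fun e => by
      rcases K4.b1 u e with rfl | rfl
      exacts [by rwa [C.act_zero], md y hy]⟩
  have hb : C.orb x0 ∩ C.bd = ∅ := by
    have t := (two_sub (C := C) (X := C.arm x0) (fun y hy => hy.1) fun x hx y e => arm_le hx e).arm
      (cmp_conn h0).2
    have ev := even_of_invol (C.act dk) md (fun y hy => act_act _ hy.1)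
      fun y hy => act_ne (by decide) hy.1
    have e := t.1.resolve_right fun q => (Nat.not_even_iff_odd.2 q.2) ev
    refine Set.eq_empty_of_forall_notMem fun z hz => ?_
    obtain ⟨a, u, b⟩ := hz.1
    exact Set.eq_empty_iff_forall_notMem.1 e _ ⟨b, C.act_bd u z a hz.2⟩
  have tr : ∀ l : P → ZMod 2, (∀ x ∈ C.orb x0, ∀ y, C.le x y → l x = l y) →
      ∀ z ∈ C.orb x0, l (C.act dk z) = l z := by
    intro l hl z hz
    obtain ⟨y, hy, v, rfl⟩ := of_orb hz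
    rw [act_comm _ _ hy.1, arm_tr h0 l v hl (md y hy), arm_tr h0 l v hl hy]
  have clo : ∀ x y, C.ls (upd s (C.orb x0) (fl + dk)) x y → (x ∈ D ↔ y ∈ D) := by
    intro x y e
    rcases h.ls_upd.1 e with e | ⟨hy, e⟩
    · exact h.clo_cut e
    · rw [h.clo_cut (Or.inl e)]; exact iff_of_true (h.OD (h.Oact _ y hy)) (h.OD hy)
  refine ⟨fl + dk, D, by decide, subset_rfl, h.good_circ hb (by decide) rfl clo ?_ fun c hc => ?_⟩
  · refine Conn.of_const h.good.conn.1 fun l hl x hx y hy => h.good.conn.const l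
      (fun a ha b hb' q => ?_) hx hy
    rcases h.ls_iff.1 q with q | ⟨w, q⟩
    · exact hl a ha b hb' (h.ls_upd.2 (Or.inl q))
    · have w' := h.Oact dk b w
      have t := tr l (fun x hx y e => hl x (h.OD hx) y (h.OD ((h.Ole x hx.1 y e).1 hx)) (Or.inl e))
      rw [← t b w]
      refine hl a ha _ (h.OD w') (h.ls_upd.2 (Or.inr ⟨w', ?_⟩))
      rwa [← C.act_add _ _ _ w.1, add_assoc, K4.add_self, add_zero]
  obtain ⟨κ, k1, k2⟩ := h.jump (X := C.arm x0) fun x hx y e => arm_le hx.1 e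
  have kl : ∀ x ∈ C.orb x0, ∀ y, C.le x y → κ x = κ y := fun a ha b e =>
    k1 a (h.OD ha) b (h.OD ((h.Ole a ha.1 b e).1 ha)) (Or.inl e)
  have kk := K4.b4 (fun v => κ (C.act v x0)) (fun v => by
      have := k2 _ (mem_orb m0 v)
      simp only [← C.act_add _ _ _ h0, ma x0 m0] at this
      convert this) fun v => by
    have := tr κ kl _ (mem_orb m0 v)
    rwa [← C.act_add _ _ _ h0] at this
  obtain ⟨w, hw⟩ : ∃ w, {x | x ∈ D ∧ κ x = κ (C.act w x0)} ∩ C.bd = ∅ := by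
    obtain ⟨e, he⟩ := h.good.connB.1
    have : ∃ w, κ e ≠ κ (C.act w x0) := by
      by_contra q
      push Not at q
      exact absurd ((kk 0 fl).1 ((q 0).symm.trans (q fl))) (by decide)
    obtain ⟨w, hw⟩ := this
    refine ⟨w, Set.eq_empty_of_forall_notMem fun x hx => hw ?_⟩
    rw [← hx.1.2]
    refine h.good.connB.const κ (fun a ha b hb' q => ?_) he ⟨hx.1.1, hx.2⟩
    rcases h.ls_iff.1 q with q | ⟨w, -⟩
    · exact k1 a ha.1 b hb'.1 q
    · exact (hb ▸ (⟨w, hb'.2⟩ : b ∈ C.orb x0 ∩ C.bd) : b ∈ (∅ : Set P)).elim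
  set U := {x | x ∈ D ∧ κ x = κ (C.act w x0)}
  have cU : ∀ x y, C.cut s (C.orb x0) x y → (x ∈ U ↔ y ∈ U) := by
    intro x y e
    change x ∈ D ∧ _ ↔ y ∈ D ∧ _
    rw [← h.clo_cut e]
    exact and_congr_right fun hx => by rw [k1 x hx y ((h.clo_cut e).1 hx) e]
  have dU : ∀ y ∈ C.arm x0, ∀ v, (C.act v y ∈ U ∩ C.orb x0 ↔ v.1 = w.1) := fun y hy v => by
    rw [← kk v w, ← arm_tr h0 κ v kl hy]
    exact ⟨fun e => e.1.2, fun e => ⟨⟨h.OD (mem_orb hy v), e⟩, mem_orb hy v⟩⟩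
  refine h.norm clo hc (h.glue (Z := U ∩ C.orb x0) clo hc
    (fun x hx y q => and_congr (cU x y (Or.inl q)) (h.Ole x hx.1 y q)) (fun z hz _ => ?_)
    (h.cob_arm cU (conn_act h0 w (fun y hy => (dU y hy w).2 rfl) fun z hz => ?_)
      (fun x hx => hx.1) (Or.inr hw) hc)) (fun l l1 l2 => ⟨0, fun _ _ _ _ _ => rfl,
        fun z hz _ => ?_⟩) subset_rfl
  · obtain ⟨y, hy, v, rfl⟩ := of_orb hz
    rw [← C.act_add _ _ _ hy.1, dU y hy, dU y hy]; exact K4.b6 v w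
  · obtain ⟨y, hy, v, rfl⟩ := of_orb hz.2
    rcases K4.b5 v w ((dU y hy v).1 hz) with rfl | rfl
    · exact ⟨y, hy, rfl⟩
    · exact ⟨_, md y hy, C.act_add _ _ _ hy.1⟩
  · rw [C.act_add _ _ _ hz.1, l2 _ (h.Oact _ z hz), tr l l1 z hz]; rfl

/-- **cut and paste**: an essential singular disc without self crossings -/
theorem Good.final (h : C.Good s D) : ∃ s' D', C.Good s' D' ∧
    ∀ x ∈ C.H, x ∈ D' → s' x = fl → C.act dk x ∉ D' := by
  generalize hn : {x | x ∈ C.H ∧ x ∈ D ∧ s x = fl ∧ C.act dk x ∈ D}.ncard = n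
  induction n using Nat.strong_induction_on generalizing s D with
  | _ n ih =>
    by_cases q : ∃ x0 ∈ C.H, x0 ∈ D ∧ s x0 = fl ∧ C.act dk x0 ∈ D
    · obtain ⟨x0, h0, hD, hs, hd⟩ := q
      have o := orb_of h h0 hD hs hd
      obtain ⟨γ, D', g, sub, good⟩ : Next (C := C) s D (C.orb x0) := by
        by_cases e : C.act dk x0 ∈ C.arm x0
        exacts [step_one o h0 e, step_two o h0 e]
      refine ih _ ?_ good rfl
      rw [← hn]
      refine Set.ncard_lt_ncard ⟨fun x hx => ⟨hx.1, sub hx.2.1, ?_, sub hx.2.2.2⟩, fun w => ?_⟩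
      · have := hx.2.2.1
        unfold upd at this
        split_ifs at this
        exacts [(g this).elim, this]
      · have := (w ⟨h0, hD, hs, hd⟩).2.2.1
        have m : x0 ∈ C.orb x0 := ⟨h0, 0, by rw [C.act_zero]; exact (cmp_conn h0).1⟩
        unfold upd at this
        rw [if_pos m] at this
        exact g this
    · exact ⟨s, D, h, fun x a b c d => q ⟨x, a, b, c, d⟩⟩

end Cut

end Crest.Agent.X212.Dsc37
end

-- ▼ part X212/Dsc37/Cr

/-!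
# Crossing simplices, half cells
-/

namespace Crest.Agent.X212.Dsc37

open Finset

section Count
variable {V : Type*} [DecidableEq V]

theorem card3 {a b c : V} (h1 : a ≠ b) (h2 : a ≠ c) (h3 : b ≠ c) : ({a, b, c} : Finset V).card = 3 :=
  card_eq_three.2 ⟨a, b, c, h1, h2, h3, rfl⟩

theorem edge_two {p : V → Prop} {a b c : V} (h1 : ¬ (p a ↔ p b)) (h2 : p b ↔ p c) (e : Finset V) :
    (e ⊆ {a, b, c} ∧ e.card = 2 ∧ (∃ x ∈ e, p x) ∧ ∃ y ∈ e, ¬ p y) ↔ e = {a, b} ∨ e = {a, c} := by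
  have ab : a ≠ b := fun q => h1 (by rw [q])
  have ac : a ≠ c := fun q => h1 (by rw [q, h2])
  constructor
  · rintro ⟨s, hc, ⟨x, hx, px⟩, y, hy, py⟩
    have xy : x ≠ y := fun q => py (q ▸ px)
    have e2 : e = {x, y} := (eq_of_subset_of_card_le
      (insert_subset hx (singleton_subset_iff.2 hy)) (by rw [hc, card_pair xy])).symm
    have sx := s hx
    have sy := s hy
    simp only [mem_insert, mem_singleton] at sx sy
    rw [e2]
    rcases sx with rfl | rfl | rfl <;> rcases sy with rfl | rfl | rfl <;>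
      first | exact (xy rfl).elim | exact Or.inl rfl | exact Or.inr rfl | exact Or.inl (pair_comm _ _) | exact Or.inr (pair_comm _ _) | tauto
  · rintro (rfl | rfl)
    · refine ⟨by intro x; simp; tauto, card_pair ab, ?_⟩
      by_cases q : p a
      · exact ⟨⟨a, by simp, q⟩, b, by simp, by tauto⟩
      · exact ⟨⟨b, by simp, by tauto⟩, a, by simp, q⟩
    · refine ⟨by intro x; simp; tauto, card_pair ac, ?_⟩
      by_cases q : p a
      · exact ⟨⟨a, by simp, q⟩, c, by simp, by tauto⟩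
      · exact ⟨⟨c, by simp, by tauto⟩, a, by simp, q⟩

theorem tri_two {p q r : V → Prop} {x y z m : V} (px : p x) (qy : q y) (rz : r z) (pm : p m)
    (xm : x ≠ m) (pq : ∀ a ∈ ({x, y, z, m} : Finset V), ¬ (p a ∧ q a))
    (pr : ∀ a ∈ ({x, y, z, m} : Finset V), ¬ (p a ∧ r a))
    (qr : ∀ a ∈ ({x, y, z, m} : Finset V), ¬ (q a ∧ r a)) :
    {t : Finset V | t ⊆ {x, y, z, m} ∧ t.card = 3 ∧ (∃ a ∈ t, p a) ∧ (∃ a ∈ t, q a) ∧
      ∃ a ∈ t, r a}.ncard = 2 := by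
  have xy : x ≠ y := fun e => pq x (by simp) ⟨px, e ▸ qy⟩
  have xz : x ≠ z := fun e => pr x (by simp) ⟨px, e ▸ rz⟩
  have yz : y ≠ z := fun e => qr y (by simp) ⟨qy, e ▸ rz⟩
  have my : m ≠ y := fun e => pq m (by simp) ⟨pm, e ▸ qy⟩
  have mz : m ≠ z := fun e => pr m (by simp) ⟨pm, e ▸ rz⟩
  refine Set.ncard_eq_two.2 ⟨{x, y, z}, {m, y, z}, fun e => ?_, ?_⟩
  · have : x ∈ ({m, y, z} : Finset V) := e ▸ mem_insert_self _ _
    simp [xm, xy, xz] at this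
  ext t
  simp only [Set.mem_ofPred_eq, Set.mem_insert_iff, Set.mem_singleton_iff]
  constructor
  · rintro ⟨s, hc, ⟨a, ha, pa⟩, ⟨b, hb, qb⟩, c, hc', rc⟩
    have b1 : b = y := by
      have := s hb
      simp only [mem_insert, mem_singleton] at this
      rcases this with rfl | rfl | rfl | rfl
      exacts [(pq b (by simp) ⟨px, qb⟩).elim, rfl, (qr b (by simp) ⟨qb, rz⟩).elim,
        (pq b (by simp) ⟨pm, qb⟩).elim]
    have c1 : c = z := by
      have := s hc'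
      simp only [mem_insert, mem_singleton] at this
      rcases this with rfl | rfl | rfl | rfl
      exacts [(pr c (by simp) ⟨px, rc⟩).elim, (qr c (by simp) ⟨qy, rc⟩).elim, rfl,
        (pr c (by simp) ⟨pm, rc⟩).elim]
    subst b1 c1
    have k : a ≠ b → a ≠ c → t = {a, b, c} := fun u v => (eq_of_subset_of_card_le
      (insert_subset ha (insert_subset hb (singleton_subset_iff.2 hc')))
      (by rw [hc, card3 u v yz])).symm
    have := s ha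
    simp only [mem_insert, mem_singleton] at this
    rcases this with rfl | rfl | rfl | rfl
    exacts [Or.inl (k xy xz), (pq a (by simp) ⟨pa, qy⟩).elim, (pr a (by simp) ⟨pa, rz⟩).elim,
      Or.inr (k my mz)]
  · rintro (rfl | rfl)
    · exact ⟨by intro a; simp; tauto, card3 xy xz yz, ⟨x, by simp, px⟩, ⟨y, by simp, qy⟩, z,
        by simp, rz⟩
    · exact ⟨by intro a; simp; tauto, card3 my mz yz, ⟨m, by simp, pm⟩, ⟨y, by simp, qy⟩, z,
        by simp, rz⟩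

theorem exists_third {a b : V} {t : Finset V} (ha : a ∈ t) (hb : b ∈ t) (ab : a ≠ b)
    (hc : t.card = 3) : ∃ c, c ≠ a ∧ c ≠ b ∧ t = {a, b, c} := by
  have s : ({a, b} : Finset V) ⊆ t := insert_subset ha (singleton_subset_iff.2 hb)
  obtain ⟨c, h1, h2⟩ := exists_eq_insert_iff.2 ⟨s, by rw [card_pair ab, hc]⟩
  simp only [mem_insert, mem_singleton, not_or] at h1
  exact ⟨c, h1.1, h1.2, by rw [← h2]; ext; simp; tauto⟩

theorem exists_fourth {a b c : V} {t : Finset V} (ha : a ∈ t) (hb : b ∈ t) (hc : c ∈ t)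
    (ab : a ≠ b) (ac : a ≠ c) (bc : b ≠ c) (h4 : t.card = 4) :
    ∃ m, m ≠ a ∧ m ≠ b ∧ m ≠ c ∧ t = {a, b, c, m} := by
  have s : ({a, b, c} : Finset V) ⊆ t := insert_subset ha (insert_subset hb (singleton_subset_iff.2 hc))
  obtain ⟨m, h1, h2⟩ := exists_eq_insert_iff.2 ⟨s, by rw [card3 ab ac bc, h4]⟩
  simp only [mem_insert, mem_singleton, not_or] at h1
  exact ⟨m, h1.1, h1.2.1, h1.2.2, by rw [← h2]; ext; simp; tauto⟩

end Count

/-- a cooriented disc whose doubly marked edges are antiparallel -/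
structure S2 {G : Type} [AddGroup G] (U B : Dat G) where
  hU : U.OK
  hB : B.OK
  d : DC U B
  w : U.V → U.V → ZMod 2
  o : U.V → U.V → Prop
  disc : U.Disc w
  ori : Ori U.K w o
  ap : ∀ σ ∈ U.K, ∀ x ∈ σ, ∀ y ∈ σ, o x y → ¬ o (d.τ x) (d.τ y)

namespace S2
variable {G : Type} [AddGroup G] {U B : Dat G} (S : S2 U B)

/-- the translated coorientation -/
def o' (x y : U.V) : Prop := S.o (S.d.τ x) (S.d.τ y)
def w' (x y : U.V) : ZMod 2 := S.w (S.d.τ x) (S.d.τ y)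
/-- translation of simplices -/
abbrev t (σ : Finset U.V) : Finset U.V := σ.image S.d.τ
/-- low for the disc, low for its translate -/
abbrev L (σ : Finset U.V) (x : U.V) : Prop := Lw S.o σ x
abbrev L' (σ : Finset U.V) (x : U.V) : Prop := Lw S.o' σ x
/-- crossing simplices -/
def Cr (σ : Finset U.V) : Prop := ∃ x ∈ σ, S.L σ x ∧ S.L' σ x

theorem ori' : Ori U.K S.w' S.o' :=
  ⟨fun σ h _ a _ b => S.ori.iff _ (S.d.τK σ h) _ (mem_image_of_mem _ a) _ (mem_image_of_mem _ b),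
    fun σ h _ a _ b _ c => S.ori.tri _ (S.d.τK σ h) _ (mem_image_of_mem _ a) _
      (mem_image_of_mem _ b) _ (mem_image_of_mem _ c),
    fun σ h _ a _ b _ c => S.ori.asy _ (S.d.τK σ h) _ (mem_image_of_mem _ a) _
      (mem_image_of_mem _ b) _ (mem_image_of_mem _ c)⟩

variable {S}

theorem L_t {σ : Finset U.V} {x : U.V} : S.L (S.t σ) (S.d.τ x) ↔ S.L' σ x := by
  simp [Lw, o']

theorem L'_t {σ : Finset U.V} {x : U.V} : S.L' (S.t σ) (S.d.τ x) ↔ S.L σ x := by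
  simp [Lw, o', S.d.ττ]

theorem mx_t {σ : Finset U.V} : Mx S.w (S.t σ) ↔ Mx S.w' σ := by
  simp [Mx, w']

theorem tt (σ : Finset U.V) : S.t (S.t σ) = σ := S.d.img_img σ

theorem pt (σ : Finset U.V) : (S.t σ).image S.d.p = σ.image S.d.p := by
  rw [image_image]; exact image_congr fun x _ => S.d.pτ x

theorem Cr.t {σ : Finset U.V} (h : S.Cr σ) : S.Cr (S.t σ) := by
  obtain ⟨x, hx, a, b⟩ := h
  exact ⟨_, mem_image_of_mem _ hx, L_t.2 b, L'_t.2 a⟩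

theorem Cr.mono {σ ρ : Finset U.V} (h : S.Cr ρ) (e : ρ ⊆ σ) : S.Cr σ := by
  obtain ⟨x, hx, ⟨y, hy, a⟩, z, hz, b⟩ := h
  exact ⟨x, e hx, ⟨y, e hy, a⟩, z, e hz, b⟩

theorem cr_iff {σ ρ : Finset U.V} (hσ : σ ∈ U.K) (e : ρ ⊆ σ) :
    S.Cr ρ ↔ (∃ x ∈ ρ, S.L σ x ∧ S.L' σ x) ∧ (∃ y ∈ ρ, ¬ S.L σ y) ∧ ∃ z ∈ ρ, ¬ S.L' σ z := by
  constructor
  · rintro ⟨x, hx, ⟨y, hy, a⟩, z, hz, b⟩
    have a' := (S.ori.lw_iff hσ (e hx) (e hy)).1 a
    have b' := (S.ori'.lw_iff hσ (e hx) (e hz)).1 b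
    exact ⟨⟨x, hx, a'.1, b'.1⟩, ⟨y, hy, a'.2⟩, z, hz, b'.2⟩
  · rintro ⟨⟨x, hx, a, b⟩, ⟨y, hy, c⟩, z, hz, d⟩
    exact ⟨x, hx, ⟨y, hy, (S.ori.lw_iff hσ (e hx) (e hy)).2 ⟨a, c⟩⟩, z, hz,
      (S.ori'.lw_iff hσ (e hx) (e hz)).2 ⟨b, d⟩⟩

theorem Cr.mx {σ : Finset U.V} (hσ : σ ∈ U.K) (h : S.Cr σ) : Mx S.w σ := by
  obtain ⟨⟨x, hx, a, -⟩, b, -⟩ := (cr_iff hσ subset_rfl).1 h
  exact (S.ori.mx_iff hσ subset_rfl).2 ⟨⟨x, hx, a⟩, b⟩

theorem Cr.mx' {σ : Finset U.V} (hσ : σ ∈ U.K) (h : S.Cr σ) : Mx S.w' σ := by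
  obtain ⟨⟨x, hx, -, a⟩, -, b⟩ := (cr_iff hσ subset_rfl).1 h
  exact (S.ori'.mx_iff hσ subset_rfl).2 ⟨⟨x, hx, a⟩, b⟩

/-- no vertex of type `11` next to a vertex of type `00` -/
theorem no11 {σ : Finset U.V} (hσ : σ ∈ U.K) {x y : U.V} (hx : x ∈ σ) (hy : y ∈ σ)
    (a : S.L σ x) (b : S.L' σ x) : S.L σ y ∨ S.L' σ y := by
  by_contra q
  push Not at q
  exact S.ap σ hσ x hx y hy ((S.ori.lw_iff hσ hx hy).2 ⟨a, q.1⟩)
    ((S.ori'.lw_iff hσ hx hy).2 ⟨b, q.2⟩)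

theorem Cr.no11 {σ : Finset U.V} (hσ : σ ∈ U.K) (h : S.Cr σ) {y : U.V} (hy : y ∈ σ) :
    S.L σ y ∨ S.L' σ y := by
  obtain ⟨x, hx, a, b⟩ := h
  exact S2.no11 hσ hx hy a b

theorem Cr.three {σ : Finset U.V} (hσ : σ ∈ U.K) (h : S.Cr σ) : ∃ x ∈ σ, ∃ y ∈ σ, ∃ z ∈ σ,
    (S.L σ x ∧ S.L' σ x) ∧ ¬ S.L σ y ∧ ¬ S.L' σ z ∧ x ≠ y ∧ x ≠ z ∧ y ≠ z := by
  obtain ⟨⟨x, hx, a⟩, ⟨y, hy, b⟩, z, hz, c⟩ := (cr_iff hσ subset_rfl).1 h
  exact ⟨x, hx, y, hy, z, hz, a, b, c, fun e => b (e ▸ a.1), fun e => c (e ▸ a.2),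
    fun e => (h.no11 hσ hy).elim b (e ▸ c)⟩

theorem Cr.card {σ : Finset U.V} (hσ : σ ∈ U.K) (h : S.Cr σ) : 3 ≤ σ.card := by
  obtain ⟨x, hx, y, hy, z, hz, -, -, -, a, b, c⟩ := h.three hσ
  rw [← card3 a b c]
  exact card_le_card (insert_subset hx (insert_subset hy (singleton_subset_iff.2 hz)))

theorem cr_two {T : Finset U.V} (hT : T ∈ U.K) (h : S.Cr T) (h4 : T.card = 4) :
    {t | t ⊆ T ∧ t.card = 3 ∧ S.Cr t}.ncard = 2 := by
  obtain ⟨x, hx, y, hy, z, hz, a, b, c, xy, xz, yz⟩ := h.three hT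
  obtain ⟨m, mx, my, mz, e⟩ := exists_fourth hx hy hz xy xz yz h4
  have n11 : ∀ v ∈ T, ¬ (¬ S.L T v ∧ ¬ S.L' T v) := fun v hv q => (h.no11 hT hv).elim q.1 q.2
  have key : {t | t ⊆ T ∧ t.card = 3 ∧ S.Cr t} = {t | t ⊆ T ∧ t.card = 3 ∧
      (∃ v ∈ t, S.L T v ∧ S.L' T v) ∧ (∃ v ∈ t, ¬ S.L T v) ∧ ∃ v ∈ t, ¬ S.L' T v} :=
    Set.ext fun t => and_congr_right fun s => and_congr_right fun _ => cr_iff hT s
  rw [key]
  generalize S.L T = p, S.L' T = q at *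
  by_cases u : p m <;> [by_cases v : q m; skip]
  · subst e
    exact tri_two (p := fun v => p v ∧ q v) a b c ⟨u, v⟩ mx.symm (fun _ _ k => k.2 k.1.1)
      (fun _ _ k => k.2 k.1.2) n11
  · have e' : T = {z, x, y, m} := by rw [e]; ext; simp; tauto
    have := tri_two (p := fun v => ¬ q v) (q := fun v => p v ∧ q v) (r := fun v => ¬ p v) c a b v
      mz.symm (fun _ _ k => k.1 k.2.2) (fun a ha k => n11 a (e' ▸ ha) k.symm)
      (fun _ _ k => k.2 k.1.1)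
    rw [← e'] at this
    rw [← this]; congr 1; ext t; simp only [Set.mem_ofPred_eq]; tauto
  · have e' : T = {y, x, z, m} := by rw [e]; ext; simp; tauto
    have := tri_two (p := fun v => ¬ p v) (q := fun v => p v ∧ q v) (r := fun v => ¬ q v) b a c u
      my.symm (fun _ _ k => k.1 k.2.1) (fun a ha k => n11 a (e' ▸ ha) k)
      (fun _ _ k => k.2 k.1.2)
    rw [← e'] at this
    rw [← this]; congr 1; ext t; simp only [Set.mem_ofPred_eq]; tauto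

open Classical in
/-- the arm of a crossing simplex `σ` that meets the face `ρ` -/
noncomputable def arm (S : S2 U B) (σ ρ : Finset U.V) : ZMod 2 :=
  if ∃ y ∈ ρ, ¬ S.L' σ y then 1 else 0

theorem arm_up {σ σ' ρ : Finset U.V} (h' : σ' ∈ U.K) (h : σ ∈ U.K) (c : S.Cr σ) (e : σ ⊆ σ')
    (e' : ρ ⊆ σ) : S.arm σ ρ = S.arm σ' ρ := by
  classical
  exact if_congr (exists_congr fun y => and_congr_right fun hy =>
    not_congr (S.ori'.lw_sub h' e (c.mx' h) (e' hy))) rfl rfl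

theorem arm_face {σ ρ ρ' : Finset U.V} (h : σ ∈ U.K) (m : Mx S.w ρ) (e : ρ ⊆ ρ') (e' : ρ' ⊆ σ)
    (n : ¬ S.Cr ρ') : S.arm σ ρ = S.arm σ ρ' := by
  classical
  refine if_congr ⟨fun ⟨y, a, b⟩ => ⟨y, e a, b⟩, fun q => ?_⟩ rfl rfl
  obtain ⟨⟨x, hx, a⟩, y, hy, b⟩ := (S.ori.mx_iff h (e.trans e')).1 m
  exact ⟨x, hx, fun c => n ((cr_iff h e').2 ⟨⟨x, e hx, a, c⟩, ⟨y, e hy, b⟩, q⟩)⟩

variable (S) in
/-- cells of the disc cut along the double curves -/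
def P : Type := {x : Finset U.V × ZMod 2 // x.1 ∈ Sf U.K S.w ∧ (¬ S.Cr x.1 → x.2 = 0)}

noncomputable instance : Fintype S.P := by
  classical
  unfold P; infer_instance

/-- base simplex and label -/
def P.b (x : S.P) : Finset U.V := x.1.1
def P.l (x : S.P) : ZMod 2 := x.1.2

theorem P.K (x : S.P) : x.b ∈ U.K := x.2.1.1
theorem P.mx (x : S.P) : Mx S.w x.b := x.2.1.2
theorem P.l0 (x : S.P) (h : ¬ S.Cr x.b) : x.l = 0 := x.2.2 h
theorem P.ext {x y : S.P} (a : x.b = y.b) (b : x.l = y.l) : x = y := Subtype.ext (Prod.ext a b)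
theorem P.mtA (x : S.P) : Mt U.A x.b := S.disc.mt x.K x.mx
theorem P.mtE (x : S.P) : Mt S.d.E x.b := by
  obtain ⟨a, h, h'⟩ := x.mtA; exact ⟨a, h, S.d.AE h'⟩

open Classical in
/-- the side of `σ` on which `x` lies -/
noncomputable def side (σ : Finset U.V) (x : S.P) : ZMod 2 := if S.Cr x.b then x.l else S.arm σ x.b

/-- the order of the cut surface -/
def le (x y : S.P) : Prop := x.b ⊆ y.b ∧ (S.Cr y.b → side y.b x = y.l)

theorem side_cr {σ : Finset U.V} {x : S.P} (h : S.Cr x.b) : side σ x = x.l := if_pos h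
theorem side_n {σ : Finset U.V} {x : S.P} (h : ¬ S.Cr x.b) : side σ x = S.arm σ x.b := if_neg h

theorem side_le {σ : Finset U.V} (hσ : σ ∈ U.K) {x y : S.P} (h : le x y) (e : y.b ⊆ σ) :
    side σ x = side σ y := by
  by_cases c : S.Cr y.b
  · rw [side_cr c, ← h.2 c]
    by_cases c' : S.Cr x.b
    · rw [side_cr c', side_cr c']
    · rw [side_n c', side_n c', arm_up hσ y.K c e h.1]
  · have c' : ¬ S.Cr x.b := fun q => c (q.mono h.1)
    rw [side_n c', side_n c, arm_face hσ x.mx h.1 e c]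

theorem le_refl (x : S.P) : le x x := ⟨subset_rfl, fun h => side_cr h⟩

theorem le_trans {x y z : S.P} (a : le x y) (b : le y z) : le x z :=
  ⟨a.1.trans b.1, fun c => (side_le z.K a b.1).trans (b.2 c)⟩

theorem le_mid {x y z : S.P} (a : le x y) (b : le x z) (e : y.b ⊆ z.b) : le y z :=
  ⟨e, fun c => (side_le z.K a e).symm.trans (b.2 c)⟩

theorem le_cr {x y : S.P} (c : S.Cr x.b) : le x y ↔ x.b ⊆ y.b ∧ x.l = y.l :=
  ⟨fun h => ⟨h.1, (side_cr c).symm.trans (h.2 (c.mono h.1))⟩,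
    fun h => ⟨h.1, fun _ => (side_cr c).trans h.2⟩⟩

theorem exists_up (x : S.P) {σ : Finset U.V} (hσ : σ ∈ U.K) (e : x.b ⊆ σ) :
    ∃ z : S.P, z.b = σ ∧ le x z := by
  classical
  exact ⟨⟨(σ, if S.Cr σ then side σ x else 0), ⟨hσ, x.mx.mono e⟩, fun h => if_neg h⟩, rfl, e,
    fun h => (if_pos h).symm⟩

theorem up_uniq {x y z : S.P} (a : le x y) (b : le x z) (e : y.b = z.b) : y = z := by
  refine P.ext e ?_
  by_cases c : S.Cr y.b
  · rw [← a.2 c, ← b.2 (e ▸ c), e]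
  · rw [y.l0 c, z.l0 (e ▸ c)]

theorem ncard_up (x : S.P) (Φ : Finset U.V → Prop) :
    {z : S.P | Φ z.b ∧ le x z}.ncard = {σ | σ ∈ U.K ∧ Φ σ ∧ x.b ⊆ σ}.ncard :=
  Set.ncard_congr (fun z _ => z.b) (fun z h => ⟨z.K, h.1, h.2.1⟩)
    (fun _ _ a b e => up_uniq a.2 b.2 e) fun σ h => by
      obtain ⟨z, rfl, e⟩ := exists_up x h.1 h.2.2
      exact ⟨z, ⟨h.2.1, e⟩, rfl⟩

theorem ncard_edge (y : S.P) : {x : S.P | x.b.card = 2 ∧ le x y}.ncard =
    {e | e ⊆ y.b ∧ e.card = 2 ∧ Mx S.w e ∧ (S.Cr y.b → S.arm y.b e = y.l)}.ncard := by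
  have n : ∀ x : S.P, x.b.card = 2 → ¬ S.Cr x.b := fun x a c => by have := c.card x.K; omega
  refine Set.ncard_congr (fun z _ => z.b)
    (fun z h => ⟨h.2.1, h.1, z.mx, fun c => (side_n (n z h.1)).symm.trans (h.2.2 c)⟩)
    (fun a b p q e => P.ext e (by rw [a.l0 (n a p.1), b.l0 (n b q.1)])) fun e h => ?_
  let x : S.P := ⟨(e, 0), ⟨S.hU.cxK.down _ y.K e h.1 (card_pos.1 (by rw [h.2.1]; decide)),
    h.2.2.1⟩, fun _ => rfl⟩
  exact ⟨x, ⟨h.2.1, h.1, fun c => (side_n (n x h.2.1)).trans (h.2.2.2 c)⟩, rfl⟩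

theorem edge_n (y : S.P) (h3 : y.b.card = 3) (n : ¬ S.Cr y.b) :
    {x : S.P | x.b.card = 2 ∧ le x y}.ncard = 2 := by
  rw [ncard_edge]
  obtain ⟨⟨a, ha, pa⟩, b, hb, pb⟩ := (S.ori.mx_iff y.K subset_rfl).1 y.mx
  obtain ⟨c, ca, cb, e⟩ := exists_third ha hb (fun q => pb (q ▸ pa)) h3
  have key : ∀ u v z : U.V, y.b = {u, v, z} → v ≠ z → ¬ (S.L y.b u ↔ S.L y.b v) →
      (S.L y.b v ↔ S.L y.b z) →
      {e | e ⊆ y.b ∧ e.card = 2 ∧ Mx S.w e ∧ (S.Cr y.b → S.arm y.b e = y.l)}.ncard = 2 := by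
    intro u v z e vz h1 h2
    refine Set.ncard_eq_two.2 ⟨{u, v}, {u, z}, fun q => ?_, Set.ext fun f => ?_⟩
    · have : v ∈ ({u, z} : Finset U.V) := q ▸ by simp
      simp only [mem_insert, mem_singleton, vz, or_false] at this
      exact h1 (by rw [this])
    · simp only [Set.mem_ofPred_eq, Set.mem_insert_iff, Set.mem_singleton_iff, n, false_imp_iff,
        and_true, ← edge_two h1 h2 f, ← e]
      exact and_congr_right fun s => and_congr_right fun _ => S.ori.mx_iff y.K s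
  by_cases pc : S.L y.b c
  · exact key b a c (by rw [e]; ext; simp; tauto) ca.symm (by tauto) (by tauto)
  · exact key a b c e cb.symm (by tauto) (by tauto)

theorem edge_c (y : S.P) (h3 : y.b.card = 3) (c : S.Cr y.b) :
    {x : S.P | x.b.card = 2 ∧ le x y}.ncard = 1 := by
  rw [ncard_edge]
  obtain ⟨x, hx, u, hu, z, hz, a, b, d, xu, xz, uz⟩ := c.three y.K
  have e : y.b = {u, x, z} := (eq_of_subset_of_card_le (insert_subset hu (insert_subset hx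
    (singleton_subset_iff.2 hz))) (by rw [h3, card3 xu.symm uz xz])).symm
  have u' := (c.no11 y.K hu).resolve_left b
  have z' := (c.no11 y.K hz).resolve_right d
  have k : ∀ f, (f ⊆ y.b ∧ f.card = 2 ∧ Mx S.w f) ↔ f = {u, x} ∨ f = {u, z} := fun f => by
    rw [← edge_two (p := S.L y.b) (by tauto) (by tauto) f, ← e]
    exact and_congr_right fun s => and_congr_right fun _ => S.ori.mx_iff y.K s
  have a0 : S.arm y.b {u, x} = 0 := if_neg (by simp [u', a.2])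
  have a1 : S.arm y.b {u, z} = 1 := if_pos ⟨z, by simp, d⟩
  have k' : ∀ f, (f ⊆ y.b ∧ f.card = 2 ∧ Mx S.w f ∧ (S.Cr y.b → S.arm y.b f = y.l)) ↔
      (f = {u, x} ∧ 0 = y.l) ∨ (f = {u, z} ∧ 1 = y.l) := fun f => by
    rw [← and_assoc, ← and_assoc, and_assoc (c := Mx S.w f), k f, or_and_right]
    exact or_congr (and_congr_right fun q => by simp [q, a0, c])
      (and_congr_right fun q => by simp [q, a1, c])
  simp only [k']
  have : y.l = 0 ∨ y.l = 1 := by generalize y.l = v; revert v; decide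
  rcases this with q | q <;> simp [q]

end S2

end Crest.Agent.X212.Dsc37
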